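import Crest.Agent.X326.Mul.Boost
import Crest.Agent.X326.M4.Defs

/-!
# The base multiplier satisfies the interface of part M4
-/

set_option autoImplicit false

namespace Crest.Agent.X326.Mul

theorem isConv_conv : M4.IsConv conv := getD_conv

/-- the exact convolution costs `cmu r p` for lengths at most `r` and entries below `2 ^ p` -/
theorem specConv : M4.SpecConv cmu :=
  ⟨conv, convT, isConv_conv, tc_conv_total, fun _ _ _ _ ha hb ha' hb' => convT_le ha hb ha' hb'⟩

end Crest.Agent.X326.Mul
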