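import Crest.Agent.X326.Mul.Correct

/-!
# Negacyclic products modulo `2 ^ P` and exact convolution
-/

set_option autoImplicit false

namespace Crest.Agent.X326.Mul

open Polynomial

/-! ### entries stay below `2 ^ P` -/

theorem Bd.nil (P : ℕ) : Bd P [] := fun _ h => by simp at h

theorem Bd.mono {P P' : ℕ} {u : List ℕ} (h : Bd P u) (hP : P ≤ P') : Bd P' u :=
  fun c hc => (h c hc).trans_le (Nat.pow_le_pow_right (by norm_num) hP)

theorem Bd.take {P : ℕ} {u : List ℕ} (h : Bd P u) (n : ℕ) : Bd P (u.take n) :=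
  fun c hc => h c (List.mem_of_mem_take hc)

theorem Bd.drop {P : ℕ} {u : List ℕ} (h : Bd P u) (n : ℕ) : Bd P (u.drop n) :=
  fun c hc => h c (List.mem_of_mem_drop hc)

theorem Bd.append {P : ℕ} {u v : List ℕ} (h : Bd P u) (h' : Bd P v) : Bd P (u ++ v) :=
  fun c hc => (List.mem_append.1 hc).elim (h c) (h' c)

theorem Bd.replicate_zero (P n : ℕ) : Bd P (List.replicate n 0) :=
  fun c hc => by rw [List.eq_of_mem_replicate hc]; positivity

theorem Bd.getD {P : ℕ} {u : List ℕ} (h : Bd P u) (i : ℕ) : u.getD i 0 < 2 ^ P := by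
  rw [List.getD_eq_getElem?_getD]
  cases hi : u[i]? with
  | none => simp
  | some c => exact h c (List.mem_of_getElem? hi)

theorem Bd2.flatten {P : ℕ} {L : List (List ℕ)} (h : Bd2 P L) : Bd P L.flatten := fun c hc => by
  obtain ⟨u, hu, hc⟩ := List.mem_flatten.1 hc
  exact h u hu c hc

theorem Bd2.singleton {P : ℕ} {u : List ℕ} (h : Bd P u) : Bd2 P [u] :=
  fun v hv => by rwa [List.mem_singleton.1 hv]

theorem bd_vadd (P : ℕ) (u v : List ℕ) : Bd P (vadd P u v) := fun c hc => by
  obtain ⟨a, _, b, _, rfl⟩ := mem_zipWith hc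
  exact Nat.mod_lt _ (by positivity)

theorem bd_vsub (P : ℕ) (u v : List ℕ) : Bd P (vsub P u v) := fun c hc => by
  obtain ⟨a, _, b, _, rfl⟩ := mem_zipWith hc
  exact Nat.mod_lt _ (by positivity)

theorem bd_map_negM (P : ℕ) (u : List ℕ) : Bd P (u.map (negM P)) := fun c hc => by
  obtain ⟨a, _, rfl⟩ := List.mem_map.1 hc
  exact Nat.mod_lt _ (by positivity)

theorem bd_map_mulM (P c : ℕ) (u : List ℕ) : Bd P (u.map (mulM P c)) := fun c hc => by
  obtain ⟨a, _, rfl⟩ := List.mem_map.1 hc
  exact Nat.mod_lt _ (by positivity)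

theorem Bd.rotc {P : ℕ} {u : List ℕ} (h : Bd P u) (c : ℕ) : Bd P (rotc P c u) :=
  (bd_map_negM P _).append (h.take c)

theorem bd2_zip_vadd (P : ℕ) (u v : List (List ℕ)) : Bd2 P (List.zipWith (vadd P) u v) :=
  fun c hc => by
    obtain ⟨a, _, b, _, rfl⟩ := mem_zipWith hc
    exact bd_vadd P a b

theorem bd2_zip_vsub (P : ℕ) (u v : List (List ℕ)) : Bd2 P (List.zipWith (vsub P) u v) :=
  fun c hc => by
    obtain ⟨a, _, b, _, rfl⟩ := mem_zipWith hc
    exact bd_vsub P a b

theorem Bd2.map_rotc {P : ℕ} {L : List (List ℕ)} (h : Bd2 P L) (c : ℕ) :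
    Bd2 P (L.map (rotc P c)) := fun u hu => by
  obtain ⟨a, ha, rfl⟩ := List.mem_map.1 hu
  exact (h a ha).rotc c

theorem bd2_fwdP (P t c : ℕ) (a : List (List ℕ)) : Bd2 P (fwdP P t c a) := bd2_zip_vadd _ _ _

theorem bd2_fwdM (P t c : ℕ) (a : List (List ℕ)) : Bd2 P (fwdM P t c a) := bd2_zip_vsub _ _ _

theorem bd2_join (P f : ℕ) (u v : List (List ℕ)) : Bd2 P (join P f u v) := fun c hc =>
  (List.mem_append.1 hc).elim (bd2_zip_vadd P u v c) ((bd2_zip_vsub P v u).map_rotc f c)

theorem mem_of_mem_cut {α : Type} {B t : ℕ} {l u : List α} (hu : u ∈ cut B t l) {c : α}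
    (hc : c ∈ u) : c ∈ l := by
  induction t generalizing l with
  | zero => simp [cut] at hu
  | succ t ih =>
    rcases List.mem_cons.1 hu with rfl | hu
    · exact List.mem_of_mem_take hc
    · exact List.mem_of_mem_drop (ih hu)

theorem Bd.emb {P : ℕ} {u : List ℕ} (h : Bd P u) (B t : ℕ) : Bd2 P (emb B t u) := fun v hv => by
  obtain ⟨a, ha, rfl⟩ := List.mem_map.1 hv
  exact Bd.append (fun c hc => h c (mem_of_mem_cut ha hc)) (Bd.replicate_zero P B)

theorem bd2_nuss (P y k e : ℕ) (a b : List (List ℕ)) : Bd2 P (nuss P y k e a b) := by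
  rcases k with _ | k
  · by_cases hy : y = 0
    · subst hy
      rw [nuss_zero_zero]
      exact Bd2.singleton (bd_vadd _ _ _)
    · rw [nuss_pos_zero P hy]
      exact Bd2.singleton (bd_vadd _ _ _)
  · rw [nuss_succ]
    exact bd2_join _ _ _ _

/-! ### the negacyclic product -/

/-- `2 ^ scl y * a * b` modulo `z ^ (2 ^ (y + 2)) + 1` and `2 ^ P` -/
def nmul (P y : ℕ) (a b : List ℕ) : List ℕ := (nuss P y 0 0 [a] [b]).flatten

theorem nmul_bd (P y : ℕ) (a b : List ℕ) : Bd P (nmul P y a b) := (bd2_nuss _ _ _ _ _ _).flatten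

theorem nmul_length (P : ℕ) {y : ℕ} {a b : List ℕ} (ha : a.length = 2 ^ (y + 2))
    (hb : b.length = 2 ^ (y + 2)) : (nmul P y a b).length = 2 ^ (y + 2) := by
  have h := (nuss_spec P y 0 0 [a] [b] (Shape.singleton ha) (Shape.singleton hb) (by simp)
    (by omega) (by omega)).1
  rw [nmul, h.length_flatten, pow_zero, one_mul]

theorem ev_nmul {A : Type} [CommRing A] {P y : ℕ} {a b : List ℕ} (ha : a.length = 2 ^ (y + 2))
    (hb : b.length = 2 ^ (y + 2)) {z : A} (h2 : (2 : A) ^ P = 0) (hz : z ^ 2 ^ (y + 2) = -1) :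
    ev z (nmul P y a b) = 2 ^ scl y * (ev z a * ev z b) := by
  obtain ⟨hs, hv⟩ := nuss_spec P y 0 0 [a] [b] (Shape.singleton ha) (Shape.singleton hb)
    (by simp) (by omega) (by omega)
  have h := hv A z 1 h2 hz
  rw [pow_zero] at hs
  rw [hs.eq_singleton] at h
  simpa [sub_eq_zero, nmul] using h

theorem scl_le (y : ℕ) : scl y ≤ 2 * y := by
  have : y.size ≤ y := Nat.size_le.2 Nat.lt_two_pow_self
  unfold scl
  omega

theorem two_pow_size_le (y : ℕ) : 2 ^ y.size ≤ 2 * y + 1 := by
  rcases Nat.eq_zero_or_pos y with rfl | hy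
  · simp
  · have h1 : 0 < y.size := Nat.size_pos.2 hy
    have h2 : 2 ^ (y.size - 1) ≤ y := Nat.lt_size.1 (by omega)
    obtain ⟨s, hs⟩ : ∃ s, y.size = s + 1 := ⟨y.size - 1, by omega⟩
    rw [hs] at h2 ⊢
    rw [pow_succ]
    simp only [Nat.add_sub_cancel] at h2
    omega

/-! ### exact convolution -/

theorem coeff_ev {A : Type} [CommSemiring A] (u : List ℕ) (i : ℕ) :
    (ev (X : A[X]) u).coeff i = ((u.getD i 0 : ℕ) : A) := by
  induction u generalizing i with
  | nil => simp
  | cons c u ih =>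
    rw [ev_cons, coeff_add, ← C_eq_natCast]
    cases i with
    | zero => simp
    | succ i => rw [coeff_C_succ, coeff_X_mul, ih, zero_add, List.getD_cons_succ]

theorem coeff_ev_mul {A : Type} [CommSemiring A] (a b : List ℕ) (k : ℕ) :
    (ev (X : A[X]) a * ev X b).coeff k =
      ((∑ i ∈ Finset.range (k + 1), a.getD i 0 * b.getD (k - i) 0 : ℕ) : A) := by
  rw [coeff_mul, Finset.Nat.sum_antidiagonal_eq_sum_range_succ
    (fun i j => (ev (X : A[X]) a).coeff i * (ev (X : A[X]) b).coeff j)]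
  simp only [coeff_ev]
  push_cast
  rfl

@[simp] theorem length_conv (a b : List ℕ) : (conv a b).length = a.length + b.length := by
  simp [conv]

/-- the entries of the convolution, for every index -/
theorem getD_conv (a b : List ℕ) (k : ℕ) :
    (conv a b).getD k 0 = ∑ i ∈ Finset.range (k + 1), a.getD i 0 * b.getD (k - i) 0 := by
  by_cases hk : k < a.length + b.length
  · rw [List.getD_eq_getElem _ _ (by simpa using hk)]
    simp [conv]
  · rw [List.getD_eq_default _ _ (by simpa using hk)]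
    refine (Finset.sum_eq_zero (fun i hi => ?_)).symm
    by_cases hia : i < a.length
    · rw [List.getD_eq_default b _ (by omega), mul_zero]
    · rw [List.getD_eq_default a _ (by omega), zero_mul]

theorem ev_conv {A : Type} [CommSemiring A] (z : A) (a b : List ℕ) :
    ev z (conv a b) = ev z a * ev z b := by
  have h : ev (X : A[X]) (conv a b) = ev X a * ev X b := by
    ext k
    rw [coeff_ev, coeff_ev_mul, getD_conv]
  have h1 := congrArg (evalRingHom z) h
  simpa only [map_mul, map_ev, coe_evalRingHom, eval_X] using h1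

theorem conv_sum_le {p q : ℕ} {a b : List ℕ} (ha : Bd p a) (hb : Bd q b) (k : ℕ) :
    ∑ i ∈ Finset.range (k + 1), a.getD i 0 * b.getD (k - i) 0 ≤ a.length * (2 ^ (p + q) - 1) := by
  have h1 : ∑ i ∈ Finset.range (k + 1), a.getD i 0 * b.getD (k - i) 0 ≤
      ∑ i ∈ Finset.range a.length, a.getD i 0 * b.getD (k - i) 0 := by
    refine Finset.sum_le_sum_of_ne_zero (fun i _ hi => Finset.mem_range.2 ?_)
    by_contra h
    exact hi (by rw [List.getD_eq_default a _ (by omega), zero_mul])
  refine h1.trans ?_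
  have h2 := Finset.sum_le_card_nsmul (Finset.range a.length)
    (fun i => a.getD i 0 * b.getD (k - i) 0) (2 ^ (p + q) - 1) (fun i _ => by
      have := Nat.mul_lt_mul'' (ha.getD i) (hb.getD (k - i))
      rw [← pow_add] at this
      omega)
  simpa using h2

/-- the entries of the convolution are small -/
theorem conv_bd {p q s : ℕ} {a b : List ℕ} (ha : Bd p a) (hb : Bd q b) (hs : a.length ≤ 2 ^ s) :
    Bd (p + q + s) (conv a b) := by
  intro c hc
  obtain ⟨k, _, rfl⟩ := List.mem_map.1 hc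
  refine (conv_sum_le ha hb k).trans_lt ?_
  have h1 : 0 < 2 ^ (p + q) := by positivity
  have h2 : 0 < 2 ^ s := by positivity
  calc a.length * (2 ^ (p + q) - 1) ≤ 2 ^ s * (2 ^ (p + q) - 1) := Nat.mul_le_mul_right _ hs
    _ < 2 ^ s * 2 ^ (p + q) := Nat.mul_lt_mul_of_pos_left (by omega) h2
    _ = 2 ^ (p + q + s) := by ring

/-- the exact convolution through one negacyclic product -/
theorem conv_eq {P p y : ℕ} {a b : List ℕ} (hl : a.length + b.length ≤ 2 ^ (y + 2))
    (ha : Bd p a) (hb : Bd p b) (hP : 2 * p + (y + 2) + scl y ≤ P) :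
    conv a b = ((nmul P y (a ++ List.replicate (2 ^ (y + 2) - a.length) 0)
      (b ++ List.replicate (2 ^ (y + 2) - b.length) 0)).take (a.length + b.length)).map
        (fun c => c / 2 ^ scl y) := by
  set n := 2 ^ (y + 2) with hn
  set a' := a ++ List.replicate (n - a.length) 0
  set b' := b ++ List.replicate (n - b.length) 0
  have hla : a'.length = n := by simp [a']; omega
  have hlb : b'.length = n := by simp [b']; omega
  have hlen := nmul_length P hla hlb
  have h2 : (2 : ZMod (2 ^ P)) ^ P = 0 := by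
    have := ZMod.natCast_self (2 ^ P)
    rwa [Nat.cast_pow, Nat.cast_ofNat] at this
  have key : ev (X : (ZMod (2 ^ P))[X]) (nmul P y a' b') =
      C (2 ^ scl y) * ev X (conv a b) := by
    refine eq_of_mk_eq (n := n) (by positivity)
      ((degree_ev_lt _).trans_le (by rw [hlen]))
      (degree_C_mul_lt _ ((degree_ev_lt _).trans_le (by rw [length_conv]; exact_mod_cast hl))) ?_
    have h3 := ev_nmul (P := P) hla hlb (z := AdjoinRoot.root (X ^ n + 1 : (ZMod (2 ^ P))[X]))
      (by rw [← map_ofNat (AdjoinRoot.of _) 2, ← map_pow, h2, map_zero]) (root_pow n)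
    simp only [map_mul, map_ev, AdjoinRoot.mk_X, map_pow, map_ofNat, ev_conv]
    rw [h3]
    simp [a', b', ev_append]
  refine List.ext_getElem (by simp [hlen]; omega) (fun k hk hk' => ?_)
  have hkn : k < (nmul P y a' b').length := by
    rw [hlen]; rw [length_conv] at hk; omega
  have h4 := congrArg (fun q => coeff q k) key
  simp only [coeff_C_mul, coeff_ev] at h4
  rw [List.getD_eq_getElem _ _ hkn, List.getD_eq_getElem _ _ hk] at h4
  have h5 : (nmul P y a' b')[k] = 2 ^ scl y * (conv a b)[k] := by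
    have h6 : ((nmul P y a' b')[k] : ℕ) ≡ 2 ^ scl y * (conv a b)[k] [MOD 2 ^ P] := by
      rw [← ZMod.natCast_eq_natCast_iff, h4]
      push_cast
      rfl
    refine Nat.ModEq.eq_of_lt_of_lt h6 (nmul_bd _ _ _ _ _ (List.getElem_mem _)) ?_
    have h7 := conv_bd (s := y + 2) ha hb (by omega) _ (List.getElem_mem hk)
    calc 2 ^ scl y * (conv a b)[k] < 2 ^ scl y * 2 ^ (p + p + (y + 2)) :=
          Nat.mul_lt_mul_of_pos_left h7 (by positivity)
      _ = 2 ^ (scl y + (p + p + (y + 2))) := by rw [← pow_add]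
      _ ≤ 2 ^ P := Nat.pow_le_pow_right (by norm_num) (by omega)
  rw [List.getElem_map, List.getElem_take, h5, Nat.mul_div_cancel_left _ (by positivity)]

end Crest.Agent.X326.Mul
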