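import Crest.Agent.X326.Mul.NussTC
import Crest.Agent.X326.Mul.NMul
import Crest.Agent.X326.M4.Defs
import Crest.Agent.X326.TC.Kron
import Crest.Agent.X326.TC.NatMul
import Crest.Agent.X326.TC.Map

/-!
Row 326 (S0503): exact acyclic convolution of lists of naturals in quasi-linear time, from the
Nussbaumer recursion, used twice (once over the schoolbook product to multiply the entries).
-/

set_option autoImplicit false

namespace Crest.Agent.X326.Mul.Bk

open Crest.Agent.Lib.PT

variable {α : Type} [PTCode α] {D : α → Prop} {T : α → ℕ}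

/-- cost of a convolution of total length `n` with entries of `p` bits -/
def cv (g : ℕ → ℕ) (n p : ℕ) : ℕ :=
  (n + 1) * (p + n.size + 1) * ((n.size + 1) * (g (4 * p + 6 * n.size + 4) + n.size.size + 1))

theorem le_cv (g : ℕ → ℕ) (n p : ℕ) : (n + 1) * (p + n.size + 1) ≤ cv g n p :=
  Nat.le_mul_of_pos_right _ (by positivity)

theorem tc_conv {g : ℕ → ℕ} (hg : Monotone g) (hm : MulTC g) {p : α → ℕ} {a b : α → List ℕ}
    (hp : TU D T p) (ha : TC D T a) (hb : TC D T b) (h : ∀ x, D x → Bd (p x) (a x) ∧ Bd (p x) (b x))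
    (hT : Bud D T (fun x => cv g ((a x).length + (b x).length) (p x))) :
    TC D T (fun x => conv (a x) (b x)) := by
  have hn : TU D T (fun x => (a x).length + (b x).length) := (TU.length ha).add (TU.length hb)
  generalize hnn : (fun x => (a x).length + (b x).length) = n at hn
  have e : ∀ x, (a x).length + (b x).length = n x := fun x => congrFun hnn x
  simp only [e] at hT
  have hy : TU D T (fun x => (n x).size) := TU.size hn.toNat
  have h8 : ∀ x, 2 ^ ((n x).size + 2) ≤ 8 * (n x + 1) := fun x => by
    have := two_pow_size_le (n x)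
    rw [pow_add]
    omega
  have hle : ∀ x, (a x).length + (b x).length ≤ 2 ^ ((n x).size + 2) := fun x => by
    have := Nat.lt_size_self (n x)
    rw [e, pow_add]
    omega
  have hN : TU D T (fun x => 2 ^ ((n x).size + 2)) :=
    TU.twoPow (hy.add (TU.const 2))
      (((hn.bud.add (Bud.const 1)).const_mul 8).mono (fun x _ => h8 x))
  have hP : TU D T (fun x => 2 * p x + 3 * (n x).size + 2) :=
    ((hp.const_mul 2).add (hy.const_mul 3)).add (TU.const 2)
  have hs : TU D T (fun x => scl (n x).size) := hy.add (TU.size hy.toNat)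
  have h1 := tc_nmul' hg hm hP hy
    (ha.append (TC.replicate_const 0 (hN.sub (TU.length ha))))
    (hb.append (TC.replicate_const 0 (hN.sub (TU.length hb)))) (fun x hx => by
      have := hle x
      refine ⟨by simp; omega, by simp; omega, ?_, ?_⟩
      · exact ((h x hx).1.mono (by omega)).append (Bd.replicate_zero _ _)
      · exact ((h x hx).2.mono (by omega)).append (Bd.replicate_zero _ _))
    ((hT.const_mul 48).mono (fun x _ => by
      have h2 := two_pow_size_le (n x).size
      have e1 : 2 * (2 * p x + 3 * (n x).size + 2) = 4 * p x + 6 * (n x).size + 4 := by ring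
      rw [e1, cv]
      calc _ ≤ 8 * (n x + 1) * (3 * (p x + (n x).size + 1)) * (2 * ((n x).size + 1) *
            (g (4 * p x + 6 * (n x).size + 4) + (n x).size.size + 1)) :=
            Nat.mul_le_mul (Nat.mul_le_mul (h8 x) (by omega))
              (Nat.mul_le_mul_right _ (by omega))
        _ = _ := by ring))
  have h2 : Lin (fun q : Un × ℕ => q.2 / 2 ^ q.1.val) :=
    TC.id.snd.natDivTwoPow (TU.val TC.id.fst)
  refine (TC.mapCtx_lin (f := fun (c : Un) (z : ℕ) => z / 2 ^ c.val)
    (c := fun x => Un.mk (scl (n x).size)) h2 hs (TC.take hn h1)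
    ((hT.const_mul 2).mono (fun x _ => ?_))).congr (fun x hx => ?_)
  · have h3 := le_cv g (n x) (p x)
    have h4 := scl_le (n x).size
    rw [sz_un]
    calc _ ≤ (n x + 1) * (2 * (p x + (n x).size + 1)) :=
          Nat.mul_le_mul (by simp) (by dsimp only; omega)
      _ = 2 * ((n x + 1) * (p x + (n x).size + 1)) := by ring
      _ ≤ _ := Nat.mul_le_mul_left _ h3
  · have h4 := scl_le (n x).size
    rw [conv_eq (P := 2 * p x + 3 * (n x).size + 2) (hle x) (h x hx).1 (h x hx).2 (by omega), e]

theorem size_two_mul_le (n : ℕ) : (2 * n).size ≤ n.size + 1 := by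
  rw [Nat.size_le, pow_succ]
  have := Nat.lt_size_self n
  omega

theorem size_succ_le (n : ℕ) : (n + 1).size ≤ n.size + 1 := by
  rw [Nat.size_le, pow_succ]
  have := Nat.lt_size_self n
  omega

/-- the cost per bit of the boosted product -/
def g1 (m : ℕ) : ℕ := (m.size + 1) ^ 2

theorem g1_mono : Monotone g1 := fun _ _ h =>
  Nat.pow_le_pow_left (Nat.succ_le_succ (Nat.size_le_size h)) 2

theorem cv_id_le (m : ℕ) :
    cv (fun m => m) (m / (m.size + 1) + 1 + (m / (m.size + 1) + 1)) (m.size + 1) ≤
      2000 * ((m + 1) * g1 m) := by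
  set w := m.size + 1 with hw
  set K := m / w + 1 with hK
  have hw1 : 1 ≤ w := by omega
  have hK1 : 1 ≤ K := Nat.le_add_left _ _
  have h1 : K * w ≤ 2 * (m + 1) := by
    have h := Nat.div_mul_le_self m w
    have h' := size_le_self m
    rw [hK, add_mul]
    omega
  have h2 : (K + K).size ≤ w + 1 := by
    have h : K + K ≤ 2 * (m + 1) := by
      have := Nat.div_le_self m w
      omega
    have h' := size_two_mul_le (m + 1)
    have h'' := size_succ_le m
    have := Nat.size_le_size h
    omega
  have h3 := size_le_self (K + K).size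
  unfold cv g1
  rw [← hw]
  calc _ ≤ (3 * K) * (4 * w) * ((3 * w) * (23 * w)) :=
        Nat.mul_le_mul (Nat.mul_le_mul (by omega) (by omega))
          (Nat.mul_le_mul (by omega) (by beta_reduce; omega))
    _ = 828 * (K * w) * w ^ 2 := by ring
    _ ≤ 828 * (2 * (m + 1)) * w ^ 2 := Nat.mul_le_mul_right _ (Nat.mul_le_mul_left _ h1)
    _ ≤ 2000 * ((m + 1) * w ^ 2) := by nlinarith [Nat.zero_le ((m + 1) * w ^ 2)]

theorem mulTC_g1 : MulTC g1 := by
  unfold MulTC
  set T : ℕ × ℕ → ℕ := fun q => (q.1.size + q.2.size + 1) * g1 (q.1.size + q.2.size) with hT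
  set m : ℕ × ℕ → ℕ := fun q => q.1.size + q.2.size with hmd
  have hm : TU (fun _ => True) T m := (TU.size TC.id.fst).add (TU.size TC.id.snd)
  have hw : TU (fun _ => True) T (fun q => (m q).size + 1) := (TU.size hm.toNat).add (TU.const 1)
  have hK : TU (fun _ => True) T (fun q => m q / ((m q).size + 1) + 1) :=
    (hm.div hw).add (TU.const 1)
  have hKw : ∀ q, (m q / ((m q).size + 1) + 1) * ((m q).size + 1) ≤ 2 * (m q + 1) := fun q => by
    have h := Nat.div_mul_le_self (m q) ((m q).size + 1)
    have h' := size_le_self (m q)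
    rw [add_mul]
    omega
  have hb : Bud (fun _ => True) T (fun q => (m q / ((m q).size + 1) + 1) * ((m q).size + 1)) :=
    ((hm.bud.add (Bud.const 1)).const_mul 2).mono (fun q _ => hKw q)
  have ha := TC.unpackW hw hK TC.id.fst hb
  have hb' := TC.unpackW hw hK TC.id.snd hb
  have hbd : ∀ k K n, Bd k (unpackW k K n) := fun _ _ _ _ hc => lt_of_mem_unpackW hc
  have hc := tc_conv (g := fun m => m) (fun _ _ h => h) tc_mulSchool' hw ha hb'
    (fun q _ => ⟨hbd _ _ _, hbd _ _ _⟩)
    ((Bud.self.const_mul 2000).mono (fun q _ => by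
      simp only [length_unpackW]
      exact cv_id_le (m q)))
  refine (TC.ofDigitsTwoPow (fun q => 3 * ((m q).size + 1)) hw hc (fun q _ => ⟨by omega, ?_⟩)
    ((hb.const_mul 8).mono (fun q _ => ?_))).of_eq (fun q => ?_)
  · refine (conv_bd (s := (m q).size + 1) (hbd _ _ _) (hbd _ _ _) ?_).mono (by omega)
    have h1 := Nat.div_le_self (m q) ((m q).size + 1)
    have h2 := Nat.lt_size_self (m q)
    rw [length_unpackW, pow_succ]
    omega
  · simp only [length_conv, length_unpackW]
    exact le_of_eq (by ring)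
  · have hlt : m q < (m q / ((m q).size + 1) + 1) * ((m q).size + 1) := by
      rw [add_mul, one_mul]
      exact Nat.lt_div_mul_add (Nat.succ_pos _)
    have key : ∀ n : ℕ, n.size ≤ m q →
        n % 2 ^ ((m q / ((m q).size + 1) + 1) * ((m q).size + 1)) = n := fun n hn =>
      Nat.mod_eq_of_lt (Nat.size_le.1 (by omega))
    rw [← ev_eq_ofDigits, ev_conv, ev_eq_ofDigits, ev_eq_ofDigits, ofDigits_unpackW,
      ofDigits_unpackW, key _ (Nat.le_add_right _ _), key _ (Nat.le_add_left _ _)]

/-- the largest entry -/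
def mx (l : List ℕ) : ℕ := l.foldl max 0

theorem foldl_max_le {l : List ℕ} {s B : ℕ} (hs : s ≤ B) (h : ∀ c ∈ l, c ≤ B) :
    l.foldl max s ≤ B := by
  induction l generalizing s with
  | nil => exact hs
  | cons c l ih => exact ih (max_le hs (h c (by simp))) (fun d hd => h d (by simp [hd]))

theorem le_foldl_max (l : List ℕ) (s : ℕ) : s ≤ l.foldl max s ∧ ∀ c ∈ l, c ≤ l.foldl max s := by
  induction l generalizing s with
  | nil => simp
  | cons c l ih =>
    have := ih (max s c)
    refine ⟨(le_max_left _ _).trans this.1, fun d hd => ?_⟩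
    rcases List.mem_cons.1 hd with rfl | hd
    · exact (le_max_right _ _).trans this.1
    · exact this.2 d hd

theorem tc_mx {l : α → List ℕ} (hl : TC D T l)
    (hb : Bud D T (fun x => (l x).length * (mx (l x)).size)) : TC D T (fun x => mx (l x)) :=
  TC.foldl_inv (f := max) (TC.id.fst.natMax TC.id.snd : Lin (fun q : ℕ × ℕ => max q.1 q.2))
    (TC.const 0) hl (fun x t => t ≤ mx (l x)) (fun x _ => (mx (l x)).size)
    (fun _ _ => Nat.zero_le _)
    (fun x _ t a ha ht => ⟨trivial, by
      rw [zero_add, sz_nat]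
      exact Nat.size_le_size ht, max_le ht ((le_foldl_max _ _).2 a ha)⟩)
    (hb.mono (fun x _ => by simp))

/-- the cost of a convolution of lists of length at most `r` with entries of `p` bits -/
def mu (r p : ℕ) : ℕ :=
  (r + 1) * ((p + Nat.size r + 1) * (Nat.size r + 1) * (Nat.size (p + Nat.size r) + 1) ^ 2)

theorem mu_mono {r r' p p' : ℕ} (hr : r ≤ r') (hp : p ≤ p') : mu r p ≤ mu r' p' := by
  have h1 := Nat.size_le_size hr
  have h2 : (p + r.size).size ≤ (p' + r'.size).size := Nat.size_le_size (by omega)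
  unfold mu
  gcongr

theorem cv_g1_le {n r : ℕ} (p : ℕ) (h : n ≤ 2 * r) : cv g1 n p ≤ 400 * mu r p := by
  have h1 : n.size ≤ r.size + 1 := (Nat.size_le_size h).trans (size_two_mul_le r)
  set z := p + r.size with hz
  have h2 : (4 * p + 6 * n.size + 4).size ≤ z.size + 4 := by
    rw [Nat.size_le, pow_add]
    have := Nat.lt_size_self z
    omega
  have h3 : n.size.size ≤ z.size + 1 :=
    (Nat.size_le_size (by omega)).trans (size_succ_le z)
  have h4 : g1 (4 * p + 6 * n.size + 4) + n.size.size + 1 ≤ 27 * (z.size + 1) ^ 2 := by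
    unfold g1
    have : ((4 * p + 6 * n.size + 4).size + 1) ^ 2 ≤ (5 * (z.size + 1)) ^ 2 :=
      Nat.pow_le_pow_left (by omega) 2
    nlinarith [Nat.zero_le z.size]
  unfold cv mu
  rw [← hz]
  calc _ ≤ (2 * (r + 1)) * (2 * (z + 1)) * ((2 * (r.size + 1)) * (27 * (z.size + 1) ^ 2)) :=
        Nat.mul_le_mul (Nat.mul_le_mul (by omega) (by omega)) (Nat.mul_le_mul (by omega) h4)
    _ = 216 * ((r + 1) * ((z + 1) * (r.size + 1) * (z.size + 1) ^ 2)) := by ring
    _ ≤ _ := Nat.mul_le_mul_right _ (by norm_num)

/-- **The base convolution.** -/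
theorem specConv : M4.SpecConv mu := by
  refine ⟨conv, fun q => mu (max q.1.length q.2.length) (mx (q.1 ++ q.2)).size,
    fun a b k => getD_conv a b k, ?_, fun r p a b ha hb hpa hpb => mu_mono (max_le ha hb) ?_⟩
  · have hc : Bud (fun _ : List ℕ × List ℕ => True)
        (fun q => mu (max q.1.length q.2.length) (mx (q.1 ++ q.2)).size)
        (fun q => cv g1 (q.1.length + q.2.length) (mx (q.1 ++ q.2)).size) :=
      (Bud.self.const_mul 400).mono (fun q _ => cv_g1_le _ (by omega))
    refine tc_conv g1_mono mulTC_g1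
      (TU.size (tc_mx (TC.id.fst.append TC.id.snd) (hc.mono (fun q _ => ?_))))
      TC.id.fst TC.id.snd (fun q _ => ⟨fun c hc => ?_, fun c hc => ?_⟩) hc
    · refine le_trans ?_ (le_cv _ _ _)
      exact Nat.mul_le_mul (by simp) (by omega)
    · exact ((le_foldl_max _ _).2 c (List.mem_append_left _ hc)).trans_lt (Nat.lt_size_self _)
    · exact ((le_foldl_max _ _).2 c (List.mem_append_right _ hc)).trans_lt (Nat.lt_size_self _)
  · rw [Nat.size_le]
    have h : mx (a ++ b) ≤ 2 ^ p - 1 := foldl_max_le (Nat.zero_le _) (fun c hc => by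
      rcases List.mem_append.1 hc with h | h
      · have := hpa c h
        omega
      · have := hpb c h
        omega)
    have : 0 < 2 ^ p := by positivity
    dsimp only
    omega

end Crest.Agent.X326.Mul.Bk
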