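import Crest.Agent.X326.Mul.OpsTC
import Crest.Agent.X326.TC.Un
import Crest.Agent.X326.TC.Rec

/-!
# Running time of the Schoenhage-Nussbaumer recursion
-/

set_option autoImplicit false

namespace Crest.Agent.X326.Mul

open Crest.Agent.Lib.PT

/-- lists of coefficient lists -/
abbrev LL : Type := List (List ℕ)

/-- a node of the recursion: `P, y, k, e` (unary) and the two factors -/
abbrev Node : Type := Un × Un × Un × Un × LL × LL

/-- word length -/
def nP (x : Node) : ℕ := x.1.val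
/-- level -/
def ny (x : Node) : ℕ := x.2.1.val
/-- remaining rounds -/
def nk (x : Node) : ℕ := x.2.2.1.val
/-- exponent -/
def ne (x : Node) : ℕ := x.2.2.2.1.val
/-- first factor -/
def na (x : Node) : LL := x.2.2.2.2.1
/-- second factor -/
def nb (x : Node) : LL := x.2.2.2.2.2

/-- constructor -/
def mkN (P y k e : ℕ) (a b : LL) : Node := (⟨P⟩, ⟨y⟩, ⟨k⟩, ⟨e⟩, a, b)

@[simp] theorem nP_mkN (P y k e : ℕ) (a b : LL) : nP (mkN P y k e a b) = P := rfl
@[simp] theorem ny_mkN (P y k e : ℕ) (a b : LL) : ny (mkN P y k e a b) = y := rfl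
@[simp] theorem nk_mkN (P y k e : ℕ) (a b : LL) : nk (mkN P y k e a b) = k := rfl
@[simp] theorem ne_mkN (P y k e : ℕ) (a b : LL) : ne (mkN P y k e a b) = e := rfl
@[simp] theorem na_mkN (P y k e : ℕ) (a b : LL) : na (mkN P y k e a b) = a := rfl
@[simp] theorem nb_mkN (P y k e : ℕ) (a b : LL) : nb (mkN P y k e a b) = b := rfl

theorem exists_mkN (x : Node) : ∃ P y k e a b, x = mkN P y k e a b :=
  ⟨nP x, ny x, nk x, ne x, na x, nb x, rfl⟩

/-- well-formed nodes -/
structure Valid (x : Node) : Prop where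
  sa : Shape (2 ^ nk x) (2 ^ (ny x + 2)) (na x)
  sb : Shape (2 ^ nk x) (2 ^ (ny x + 2)) (nb x)
  ba : Bd2 (nP x) (na x)
  bb : Bd2 (nP x) (nb x)
  dvd : 2 ^ nk x ∣ ne x
  kle : nk x ≤ ny x + 3
  ele : ne x ≤ 2 * 2 ^ (ny x + 2)

/-- the volume of a node -/
def nvol (x : Node) : ℕ := vol (nP x) (ny x) (nk x)

/-- the value of a node -/
def nval (x : Node) : LL := nuss (nP x) (ny x) (nk x) (ne x) (na x) (nb x)

/-- first child of a butterfly node -/
def childP (x : Node) : Node :=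
  mkN (nP x) (ny x) (nk x - 1) (ne x / 2)
    (fwdP (nP x) (2 ^ (nk x - 1)) (2 ^ (ny x + 2) - ne x / 2) (na x))
    (fwdP (nP x) (2 ^ (nk x - 1)) (2 ^ (ny x + 2) - ne x / 2) (nb x))

/-- second child of a butterfly node -/
def childM (x : Node) : Node :=
  mkN (nP x) (ny x) (nk x - 1) (ne x / 2 + 2 ^ (ny x + 2))
    (fwdM (nP x) (2 ^ (nk x - 1)) (2 ^ (ny x + 2) - ne x / 2) (na x))
    (fwdM (nP x) (2 ^ (nk x - 1)) (2 ^ (ny x + 2) - ne x / 2) (nb x))

/-- the child of a re-embedding node -/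
def childE (x : Node) : Node :=
  mkN (nP x) (ny x / 2) ((ny x + 1) / 2 + 1) (2 ^ (ny x / 2 + 2))
    (emb (2 ^ (ny x / 2 + 1)) (2 ^ ((ny x + 1) / 2 + 1)) (na x).flatten)
    (emb (2 ^ (ny x / 2 + 1)) (2 ^ ((ny x + 1) / 2 + 1)) (nb x).flatten)

/-- frames -/
abbrev Frame : Type := Node × Option LL

/-- entering a node -/
def stepIn (x : Node) : (Frame × Node) ⊕ LL :=
  if nk x = 0 then
    if ny x = 0 then Sum.inr [school (nP x) (na x).flatten (nb x).flatten]
    else Sum.inl ((x, none), childE x)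
  else Sum.inl ((x, none), childP x)

/-- after the first call -/
def stepFst (x : Node) (u : LL) : (Frame × Node) ⊕ LL :=
  if nk x = 0 then
    Sum.inr [unemb (nP x) (2 ^ (ny x / 2 + 1)) (2 ^ (ny x + 2) - 2 ^ (ny x / 2 + 1)) u]
  else Sum.inl ((x, some u), childM x)

/-- after a call -/
def stepOut (p : Frame × LL) : (Frame × Node) ⊕ LL :=
  p.1.2.elim (stepFst p.1.1 p.2) (fun u => Sum.inr (join (nP p.1.1) (ne p.1.1 / 2) u p.2))

/-- the transition function -/
def step : Node ⊕ (Frame × LL) → (Frame × Node) ⊕ LL := Sum.elim stepIn stepOut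

/-- the domain after a call -/
def OutOK (p : Frame × LL) : Prop :=
  Valid p.1.1 ∧
    (nk p.1.1 = 0 → Shape (2 ^ ((ny p.1.1 + 1) / 2 + 1)) (2 ^ (ny p.1.1 / 2 + 2)) p.2) ∧
    ∀ u, p.1.2 = some u → u.length ≤ 2 ^ nk p.1.1 ∧ ∀ w ∈ u, w.length ≤ 2 ^ (ny p.1.1 + 2)

/-- the local cost on entering a node -/
def locIn (g : ℕ → ℕ) (x : Node) : ℕ :=
  if nk x = 0 ∧ ny x = 0 then nvol x * (g (2 * nP x) + 1) else nvol x

/-! ### the transitions are cheap -/

section tc

variable {α : Type} [PTCode α] {D : Dom α} {T : Cost α} {x : α → Node}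

theorem tu_nP (hx : TC D T x) : TU D T (fun a => nP (x a)) := TU.val hx.fst
theorem tu_ny (hx : TC D T x) : TU D T (fun a => ny (x a)) := TU.val hx.snd.fst
theorem tu_nk (hx : TC D T x) : TU D T (fun a => nk (x a)) := TU.val hx.snd.snd.fst
theorem tu_ne (hx : TC D T x) : TU D T (fun a => ne (x a)) := TU.val hx.snd.snd.snd.fst
theorem tc_na (hx : TC D T x) : TC D T (fun a => na (x a)) := hx.snd.snd.snd.snd.fst
theorem tc_nb (hx : TC D T x) : TC D T (fun a => nb (x a)) := hx.snd.snd.snd.snd.snd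

theorem tc_mkN {P y k e : α → ℕ} {a b : α → LL} (hP : TU D T P) (hy : TU D T y) (hk : TU D T k)
    (he : TU D T e) (ha : TC D T a) (hb : TC D T b) :
    TC D T (fun c => mkN (P c) (y c) (k c) (e c) (a c) (b c)) :=
  hP.tc.prodMk (hy.tc.prodMk (hk.tc.prodMk (he.tc.prodMk (ha.prodMk hb))))

theorem tu_n (hx : TC D T x) (hv : Bud D T (fun a => nvol (x a))) :
    TU D T (fun a => 2 ^ (ny (x a) + 2)) :=
  TU.twoPow ((tu_ny hx).add (TU.const 2)) (hv.mono (fun _ _ => pow_le_vol _ _ _))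

theorem tu_t (hx : TC D T x) (hv : Bud D T (fun a => nvol (x a))) :
    TU D T (fun a => 2 ^ (nk (x a) - 1)) :=
  TU.twoPow ((tu_nk hx).sub (TU.const 1)) (hv.mono (fun a _ =>
    (Nat.pow_le_pow_right (by norm_num) (Nat.sub_le _ _)).trans (pow_le_vol' _ _ _)))

theorem tu_B (hx : TC D T x) (hv : Bud D T (fun a => nvol (x a))) :
    TU D T (fun a => 2 ^ (ny (x a) / 2 + 1)) :=
  TU.twoPow (((tu_ny hx).div (TU.const 2)).add (TU.const 1)) (hv.mono (fun a _ =>
    (Nat.pow_le_pow_right (by norm_num) (by omega)).trans (pow_le_vol _ _ _)))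

theorem tu_f (hx : TC D T x) : TU D T (fun a => ne (x a) / 2) := (tu_ne hx).div (TU.const 2)

theorem len_mul_le {P y k l : ℕ} (h : l ≤ 2 ^ k) :
    l * ((2 ^ (y + 2) + 1) * (P + 1)) ≤ 2 * vol P y k := by
  have h1 : 2 ^ (y + 2) + 1 ≤ 2 * 2 ^ (y + 2) := by
    have : 0 < 2 ^ (y + 2) := by positivity
    omega
  calc l * ((2 ^ (y + 2) + 1) * (P + 1)) ≤ 2 ^ k * ((2 * 2 ^ (y + 2)) * (P + 1)) :=
        Nat.mul_le_mul h (Nat.mul_le_mul_right _ h1)
    _ = 2 * vol P y k := by unfold vol; ring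

theorem tc_childP (hx : TC D T x) (hv : Bud D T (fun a => nvol (x a)))
    (h : ∀ a, D a → Valid (x a)) : TC D T (fun a => childP (x a)) := by
  have hc := (tu_n hx hv).sub (tu_f hx)
  refine tc_mkN (tu_nP hx) (tu_ny hx) ((tu_nk hx).sub (TU.const 1)) (tu_f hx) ?_ ?_
  · exact tc_fwdP (tu_nP hx) (tu_t hx hv) hc (tc_na hx) (fun a => 2 ^ (ny (x a) + 2))
      (fun a ha => ⟨Nat.sub_le _ _, fun u hu => ((h a ha).sa.2 u hu).le⟩)
      ((hv.const_mul 2).mono (fun a ha => len_mul_le (h a ha).sa.1.le))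
  · exact tc_fwdP (tu_nP hx) (tu_t hx hv) hc (tc_nb hx) (fun a => 2 ^ (ny (x a) + 2))
      (fun a ha => ⟨Nat.sub_le _ _, fun u hu => ((h a ha).sb.2 u hu).le⟩)
      ((hv.const_mul 2).mono (fun a ha => len_mul_le (h a ha).sb.1.le))

theorem tc_childM (hx : TC D T x) (hv : Bud D T (fun a => nvol (x a)))
    (h : ∀ a, D a → Valid (x a)) : TC D T (fun a => childM (x a)) := by
  have hc := (tu_n hx hv).sub (tu_f hx)
  refine tc_mkN (tu_nP hx) (tu_ny hx) ((tu_nk hx).sub (TU.const 1))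
    ((tu_f hx).add (tu_n hx hv)) ?_ ?_
  · exact tc_fwdM (tu_nP hx) (tu_t hx hv) hc (tc_na hx) (fun a => 2 ^ (ny (x a) + 2))
      (fun a ha => ⟨Nat.sub_le _ _, fun u hu => ((h a ha).sa.2 u hu).le⟩)
      ((hv.const_mul 2).mono (fun a ha => len_mul_le (h a ha).sa.1.le))
  · exact tc_fwdM (tu_nP hx) (tu_t hx hv) hc (tc_nb hx) (fun a => 2 ^ (ny (x a) + 2))
      (fun a ha => ⟨Nat.sub_le _ _, fun u hu => ((h a ha).sb.2 u hu).le⟩)
      ((hv.const_mul 2).mono (fun a ha => len_mul_le (h a ha).sb.1.le))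

theorem pow_split (y : ℕ) : 2 ^ (y + 2) = 2 ^ ((y + 1) / 2 + 1) * 2 ^ (y / 2 + 1) := by
  rw [← pow_add]; congr 1; omega

theorem Valid.len_a {x : Node} (h : Valid x) (hk : nk x = 0) :
    (na x).flatten.length = 2 ^ (ny x + 2) := by
  rw [h.sa.length_flatten, hk, pow_zero, one_mul]

theorem Valid.len_b {x : Node} (h : Valid x) (hk : nk x = 0) :
    (nb x).flatten.length = 2 ^ (ny x + 2) := by
  rw [h.sb.length_flatten, hk, pow_zero, one_mul]

theorem tc_childE (hx : TC D T x) (hv : Bud D T (fun a => nvol (x a)))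
    (h : ∀ a, D a → Valid (x a) ∧ nk (x a) = 0) : TC D T (fun a => childE (x a)) := by
  refine tc_mkN (tu_nP hx) ((tu_ny hx).div (TU.const 2))
    ((((tu_ny hx).add (TU.const 1)).div (TU.const 2)).add (TU.const 1))
    (TU.twoPow (((tu_ny hx).div (TU.const 2)).add (TU.const 2)) (hv.mono (fun a _ =>
      (Nat.pow_le_pow_right (by norm_num) (by omega)).trans (pow_le_vol _ _ _)))) ?_ ?_
  · exact tc_emb (tu_B hx hv) (tc_na hx).flatten (fun a => 2 ^ ((ny (x a) + 1) / 2 + 1))
      (fun a ha => ⟨by positivity, by rw [(h a ha).1.len_a (h a ha).2, pow_split]⟩)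
  · exact tc_emb (tu_B hx hv) (tc_nb hx).flatten (fun a => 2 ^ ((ny (x a) + 1) / 2 + 1))
      (fun a ha => ⟨by positivity, by rw [(h a ha).1.len_b (h a ha).2, pow_split]⟩)

end tc

theorem nvol_le_locIn (g : ℕ → ℕ) (x : Node) : nvol x ≤ locIn g x := by
  unfold locIn
  split_ifs
  · exact Nat.le_mul_of_pos_right _ (by omega)
  · exact le_rfl

theorem tc_stepIn {g : ℕ → ℕ} (hg : Monotone g) (hm : MulTC g) : TC Valid (locIn g) stepIn := by
  have hv : ∀ {D : Dom Node}, Bud D (locIn g) (fun a => nvol a) :=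
    Bud.self.mono (fun x _ => nvol_le_locIn g x)
  refine TC.ite' (tu_nk TC.id).decide_eq_zero (TC.ite' (tu_ny TC.id).decide_eq_zero ?_ ?_) ?_
  · refine TC.inr (TC.singleton (tc_school g hg hm (tu_nP TC.id) (tc_na TC.id).flatten
      (tc_nb TC.id).flatten (fun x hx => ⟨hx.1.1.ba.flatten, hx.1.1.bb.flatten, ?_⟩)
      (Bud.self.mono (fun x hx => ?_))))
    · rw [hx.1.1.len_b hx.1.2, hx.2]; rfl
    · rw [locIn, if_pos ⟨hx.1.2, hx.2⟩]
      exact Nat.mul_le_mul_right _ (P_le_vol _ _ _)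
  · exact TC.inl ((TC.id.prodMk (TC.const none)).prodMk (tc_childE TC.id hv (fun x hx => hx.1)))
  · exact TC.inl ((TC.id.prodMk (TC.const none)).prodMk (tc_childP TC.id hv (fun x hx => hx.1)))

theorem tc_stepOut : TC OutOK (fun p => nvol p.1.1) stepOut := by
  refine TC.optionCases' TC.id.fst.snd ?_ ?_
  · have hx : ∀ {D : Dom (Frame × LL)}, TC D (fun p => nvol p.1.1) (fun p => p.1.1) :=
      TC.id.fst.fst
    refine TC.ite' (tu_nk hx).decide_eq_zero ?_ ?_
    · refine TC.inr (TC.singleton (tc_unemb (tu_nP hx) (tu_B hx Bud.self)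
        ((tu_n hx Bud.self).sub (tu_B hx Bud.self)) TC.id.snd (fun p hp w hw => ?_)
        ((Bud.self.const_mul 2).mono (fun p hp => ?_))))
      · rw [(hp.1.1.2.1 hp.2).2 w hw]
        exact Nat.pow_le_pow_right (by norm_num) (by omega)
      · rw [(hp.1.1.2.1 hp.2).length_flatten, nvol, hp.2, ← vol_emb, vol, mul_assoc]
    · exact TC.inl ((hx.prodMk TC.id.snd.some).prodMk
        (tc_childM hx Bud.self (fun p hp => hp.1.1.1)))
  · have hx : ∀ {D : Dom ((Frame × LL) × LL)}, TC D (fun p => nvol p.1.1.1) (fun p => p.1.1.1) :=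
      TC.id.fst.fst.fst
    exact TC.inr (tc_join (tu_nP hx) (tu_f hx) TC.id.snd TC.id.fst.snd
      (fun p => 2 ^ (ny p.1.1.1 + 2))
      (fun p hp => ⟨by have := hp.1.1.ele; omega, (hp.1.2.2 _ hp.2).2⟩)
      ((Bud.self.const_mul 2).mono (fun p hp => len_mul_le (hp.1.2.2 _ hp.2).1)))

/-- the domain of the transition function -/
def StepOK : Node ⊕ (Frame × LL) → Prop := Sum.elim Valid OutOK

/-- the cost of the transition function -/
def stepCost (g : ℕ → ℕ) : Node ⊕ (Frame × LL) → ℕ := Sum.elim (locIn g) (fun p => nvol p.1.1)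

theorem tc_step {g : ℕ → ℕ} (hg : Monotone g) (hm : MulTC g) : TC StepOK (stepCost g) step :=
  TC.sumElim (tc_stepIn hg hm) tc_stepOut

/-! ### the run of the recursion -/

theorem Valid.sz_le {x : Node} (h : Valid x) : sz x ≤ 30 * nvol x := by
  have ha := h.sa.sz_le h.ba (by positivity)
  have hb := h.sb.sz_le h.bb (by positivity)
  have he := h.ele
  obtain ⟨P, y, k, e, a, b, rfl⟩ := exists_mkN x
  have h1 := pow_le_vol P y k
  have h2 := P_le_vol P y k
  have h3 := y_le_vol P y k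
  have h4 := k_le_vol P y k
  simp only [nP_mkN, ny_mkN, nk_mkN, ne_mkN, na_mkN, nb_mkN, nvol] at *
  change _ ≤ 5 * vol P y k at ha hb
  simp only [mkN, sz_prod, sz_un]
  omega

theorem Valid.shape_nval {x : Node} (h : Valid x) :
    Shape (2 ^ nk x) (2 ^ (ny x + 2)) (nval x) :=
  (nuss_spec _ _ _ _ _ _ h.sa h.sb h.dvd h.kle h.ele).1

theorem Valid.sz_nval {x : Node} (h : Valid x) : sz (nval x) ≤ 5 * nvol x :=
  h.shape_nval.sz_le (bd2_nuss _ _ _ _ _ _) (by positivity)

theorem Valid.childE {x : Node} (h : Valid x) (hk : nk x = 0) : Valid (childE x) := by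
  have hBB : 2 ^ (ny x / 2 + 2) = 2 ^ (ny x / 2 + 1) + 2 ^ (ny x / 2 + 1) := by ring
  refine ⟨?_, ?_, h.ba.flatten.emb _ _, h.bb.flatten.emb _ _, ?_, ?_, ?_⟩ <;>
    simp only [Mul.childE, ny_mkN, nk_mkN, ne_mkN, na_mkN, nb_mkN]
  · rw [hBB]; exact shape_emb (by rw [h.len_a hk, pow_split])
  · rw [hBB]; exact shape_emb (by rw [h.len_b hk, pow_split])
  · exact pow_dvd_pow 2 (by omega)
  · omega
  · omega

theorem Valid.half {x : Node} (h : Valid x) {k : ℕ} (hk : nk x = k + 1) : 2 ^ k ∣ ne x / 2 := by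
  have he := h.dvd
  rw [hk, pow_succ'] at he
  obtain ⟨c, hc⟩ := he
  rw [hc, mul_assoc, Nat.mul_div_cancel_left _ (by norm_num)]
  exact dvd_mul_right _ _

theorem Valid.childP {x : Node} (h : Valid x) {k : ℕ} (hk : nk x = k + 1) :
    Valid (childP x) := by
  have htt : 2 ^ (k + 1) = 2 ^ k + 2 ^ k := by ring
  have h1 := h.sa
  have h2 := h.sb
  have h3 := h.kle
  have h4 := h.ele
  rw [hk, htt] at h1 h2
  refine ⟨?_, ?_, bd2_fwdP _ _ _ _, bd2_fwdP _ _ _ _, ?_, ?_, ?_⟩ <;>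
    simp only [Mul.childP, ny_mkN, nk_mkN, ne_mkN, na_mkN, nb_mkN, hk, Nat.add_sub_cancel]
  · exact h1.fwdP
  · exact h2.fwdP
  · exact h.half hk
  · omega
  · omega

theorem Valid.childM {x : Node} (h : Valid x) {k : ℕ} (hk : nk x = k + 1) :
    Valid (childM x) := by
  have htt : 2 ^ (k + 1) = 2 ^ k + 2 ^ k := by ring
  have h1 := h.sa
  have h2 := h.sb
  have h3 := h.kle
  have h4 := h.ele
  rw [hk, htt] at h1 h2
  refine ⟨?_, ?_, bd2_fwdM _ _ _ _, bd2_fwdM _ _ _ _, ?_, ?_, ?_⟩ <;>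
    simp only [Mul.childM, ny_mkN, nk_mkN, ne_mkN, na_mkN, nb_mkN, hk, Nat.add_sub_cancel]
  · exact h1.fwdM
  · exact h2.fwdM
  · exact dvd_add (h.half hk) (pow_dvd_pow 2 (by omega))
  · omega
  · omega

theorem recRun_nuss (g : ℕ → ℕ) (P y : ℕ) : ∀ (k : ℕ) (x : Node), Valid x → nP x = P →
    ny x = y → nk x = k → ∃ n, RecRun step StepOK (stepCost g) (Sum.inl x) (nval x) n ∧
      n ≤ 400 * tot (g (2 * P)) P y k := by
  induction y using Nat.strong_induction_on with
  | _ y ihy =>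
  intro k
  induction k with
  | zero =>
    intro x hx hP hy hk
    have hsz := hx.sz_le
    have hvol : nvol x = vol P y 0 := by rw [nvol, hP, hy, hk]
    have hpos := vol_pos P y 0
    by_cases hy0 : y = 0
    · have hv : nval x = [school (nP x) (na x).flatten (nb x).flatten] := by
        rw [nval, hk, hy, hy0, nuss_zero_zero]
      refine ⟨_, RecRun.ret (a := Sum.inl x) hx ?_, ?_⟩
      · simp [step, stepIn, hk, hy, hy0, hv]
      · have h1 := tot_base (g (2 * P)) P
        have h2 : vol P 0 0 ≤ vol P 0 0 * (g (2 * P) + 1) := Nat.le_mul_of_pos_right _ (by omega)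
        simp only [stepCost, Sum.elim_inl, locIn, hk, hy, hy0, and_self, if_true, sz_inl, hvol,
          hP] at *
        omega
    · have hc := hx.childE hk
      obtain ⟨n₁, hr, hn₁⟩ := ihy (y / 2) (by omega) ((y + 1) / 2 + 1) (childE x) hc hP
        (by rw [← hy]; rfl) (by rw [← hy]; rfl)
      have hv : nval x = [unemb (nP x) (2 ^ (ny x / 2 + 1))
          (2 ^ (ny x + 2) - 2 ^ (ny x / 2 + 1)) (nval (childE x))] := by
        rw [nval, hk, nuss_pos_zero _ (hy ▸ hy0)]
        rfl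
      have hs := hc.sz_nval
      have hvc : nvol (childE x) = 2 * vol P y 0 := by
        rw [← vol_emb, ← hP, ← hy]; rfl
      refine ⟨_, RecRun.call (a := Sum.inl x) (k := (x, none)) hx ?_ hr
        (RecRun.ret (a := Sum.inr ((x, none), nval (childE x)))
          ⟨hx, fun _ => hc.shape_nval, fun u hu => by simp at hu⟩ ?_), ?_⟩
      · simp [step, stepIn, hk, hy, hy0]
      · simp [step, stepOut, stepFst, hk, hv]
      · have h1 := tot_emb (g (2 * P)) P hy0
        simp only [stepCost, Sum.elim_inl, Sum.elim_inr, locIn, hy, hy0, and_false, if_false,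
          sz_inl, sz_inr, sz_prod (α := Frame), sz_prod (α := Node), sz_none, hvol, hvc] at *
        omega
  | succ k ihk =>
    intro x hx hP hy hk
    have hsz := hx.sz_le
    have hvol : nvol x = 2 * vol P y k := by rw [nvol, hP, hy, hk, vol_succ]
    have hpos := vol_pos P y k
    have hk0 : nk x ≠ 0 := by omega
    have hc := hx.childP hk
    have hc' := hx.childM hk
    have hkP : nk (childP x) = k := by simp [childP, hk]
    have hkM : nk (childM x) = k := by simp [childM, hk]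
    obtain ⟨n₁, hr, hn₁⟩ := ihk (childP x) hc hP hy hkP
    obtain ⟨n₂, hr', hn₂⟩ := ihk (childM x) hc' hP hy hkM
    have hv : nval x = join (nP x) (ne x / 2) (nval (childP x)) (nval (childM x)) := by
      rw [nval, hk, nuss_succ]
      simp [nval, childP, childM, hk]
    have hs := hc.sz_nval
    have hs' := hc'.sz_nval
    have hvc : nvol (childP x) = vol P y k := by rw [nvol, hkP, ← hP, ← hy]; rfl
    have hvc' : nvol (childM x) = vol P y k := by rw [nvol, hkM, ← hP, ← hy]; rfl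
    have hsh := hc.shape_nval
    refine ⟨_, RecRun.call (a := Sum.inl x) (k := (x, none)) hx ?_ hr
      (RecRun.call (a := Sum.inr ((x, none), nval (childP x))) (k := (x, some (nval (childP x))))
        ⟨hx, fun h => absurd h hk0, fun u hu => by simp at hu⟩ ?_ hr'
        (RecRun.ret (a := Sum.inr ((x, some (nval (childP x))), nval (childM x)))
          ⟨hx, fun h => absurd h hk0, fun u hu => ?_⟩ ?_)), ?_⟩
    · simp [step, stepIn, hk0]
    · simp [step, stepOut, stepFst, hk0]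
    · obtain rfl : nval (childP x) = u := by simpa using hu
      refine ⟨?_, fun w hw => (hsh.2 w hw).le⟩
      rw [hsh.1, hkP]
      exact Nat.pow_le_pow_right (by norm_num) (by change k ≤ nk x; omega)
    · simp [step, stepOut, hv]
    · have h1 := tot_succ (g (2 * P)) P y k
      rw [vol_succ] at h1
      simp only [stepCost, Sum.elim_inl, Sum.elim_inr, locIn, hk0, false_and, if_false,
        sz_inl, sz_inr, sz_prod (α := Frame), sz_prod (α := Node), sz_none, sz_some, hvol, hvc,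
        hvc'] at *
      omega

/-- the whole recursion -/
theorem tc_nval {g : ℕ → ℕ} (hg : Monotone g) (hm : MulTC g) :
    TC Valid (fun x => tot (g (2 * nP x)) (nP x) (ny x) (nk x)) nval := by
  refine TC.recRun (tc_step hg hm) 400 (fun x hx => ?_)
  obtain ⟨n, hr, hn⟩ := recRun_nuss g _ _ _ x hx rfl rfl rfl
  exact ⟨n, hr, hn.trans (Nat.mul_le_mul_left _ (by omega))⟩

/-- **Running time of the negacyclic product**, compositional form. -/
theorem tc_nmul' {g : ℕ → ℕ} (hg : Monotone g) (hm : MulTC g) {α : Type} [PTCode α] {D : Dom α}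
    {T : Cost α} {P y : α → ℕ} {a b : α → List ℕ} (hP : TU D T P) (hy : TU D T y)
    (ha : TC D T a) (hb : TC D T b)
    (h : ∀ x, D x → (a x).length = 2 ^ (y x + 2) ∧ (b x).length = 2 ^ (y x + 2) ∧
      Bd (P x) (a x) ∧ Bd (P x) (b x))
    (hT : Bud D T (fun x => 2 ^ (y x + 2) * (P x + 1) *
      (2 ^ (y x).size * (g (2 * P x) + (y x).size + 1)))) :
    TC D T (fun x => nmul (P x) (y x) (a x) (b x)) := by
  have h1 : TC D T (fun x => mkN (P x) (y x) 0 0 [a x] [b x]) :=
    tc_mkN hP hy (TU.const 0) (TU.const 0) ha.singleton hb.singleton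
  refine ((tc_nval hg hm).comp h1 (fun x hx => ?_)
    ((hT.const_mul 10).mono (fun x _ => tot_zero_le _ _ _))).flatten
  obtain ⟨h1, h2, h3, h4⟩ := h x hx
  exact ⟨Shape.singleton h1, Shape.singleton h2, Bd2.singleton h3, Bd2.singleton h4, by simp,
    by simp, by simp⟩

/-- **Running time of the negacyclic product**; the input is `(P, y, a, b)`. -/
theorem tc_nmul {g : ℕ → ℕ} (hg : Monotone g) (hm : MulTC g) :
    TC (fun q : Un × ℕ × List ℕ × List ℕ => q.2.2.1.length = 2 ^ (q.2.1 + 2) ∧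
        q.2.2.2.length = 2 ^ (q.2.1 + 2) ∧ Bd q.1.val q.2.2.1 ∧ Bd q.1.val q.2.2.2)
      (fun q => 2 ^ (q.2.1 + 2) * (q.1.val + 1) *
        (2 ^ q.2.1.size * (g (2 * q.1.val) + q.2.1.size + 1)))
      (fun q => nmul q.1.val q.2.1 q.2.2.1 q.2.2.2) := by
  refine tc_nmul' hg hm (TU.val TC.id.fst) (TU.ofNat TC.id.snd.fst ?_) TC.id.snd.snd.fst
    TC.id.snd.snd.snd (fun _ h => h) Bud.self
  refine (TU.length TC.id.snd.snd.fst).bud.mono (fun q hq => ?_)
  rw [hq.1]
  exact (Nat.le_add_right _ 2).trans Nat.lt_two_pow_self.le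

end Crest.Agent.X326.Mul
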