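import Crest.Agent.X326.Mul.BoostPure
import Crest.Agent.X326.Mul.NussTC
import Crest.Agent.X326.TC.Kron
import Crest.Agent.X326.TC.NatMul

/-!
# The base multiplier: from negacyclic products to convolutions and to integer products

* `tc_conv_of`  : the exact convolution at cost `convCost g` from `MulTC g`,
* `mulTC_boost` : `MulTC g → MulTC (boost g)`,
* `mulTC_g1`, `mulTC_g2` : products at cost `log ^ 2` and `log * (log log) ^ 2` per bit,
* `tc_conv`     : the exact convolution at cost `cmu`; `tc_natMul` : the fast product.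
-/

set_option autoImplicit false

namespace Crest.Agent.X326.Mul

open Crest.Agent.Lib.PT

section

variable {α : Type} [PTCode α] {D : Dom α} {T : Cost α}

theorem MulTC.mono {g g' : ℕ → ℕ} (h : MulTC g) (C : ℕ) (hC : ∀ m, g m ≤ C * g' m) :
    MulTC g' :=
  TC.budget h (Bud.of_le_mul C (fun q _ => by
    calc _ ≤ (q.1.size + q.2.size + 1) * (C * g' (q.1.size + q.2.size)) :=
          Nat.mul_le_mul_left _ (hC _)
      _ = _ := by ring))

theorem tc_digs {b K n : α → ℕ} (hb : TU D T b) (hK : TU D T K) (hn : TC D T n)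
    (hB : Bud D T (fun x => K x * b x)) : TC D T (fun x => digs (b x) (K x) (n x)) :=
  TC.unpackW hb hK hn hB

theorem tc_ev {b : α → ℕ} {l : α → List ℕ} (w : α → ℕ) (hb : TU D T b) (hl : TC D T l)
    (h : ∀ x, D x → 1 ≤ b x ∧ Bd (w x) (l x))
    (hB : Bud D T (fun x => (l x).length * (b x + w x))) :
    TC D T (fun x => ev (2 ^ b x) (l x)) :=
  (TC.ofDigitsTwoPow w hb hl h hB).of_eq (fun _ => (ev_eq_ofDigits _ _).symm)

/-- the width of a list, in unary -/
theorem tu_wid {l : α → List ℕ} (hl : TC D T l)
    (hb : Bud D T (fun x => (l x).length * wid (l x))) : TU D T (fun x => wid (l x)) := by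
  have h1 : Lin (fun q : Un × ℕ => Un.mk (max q.1.val q.2.size)) :=
    TU.max (TU.val TC.id.fst) (TU.size TC.id.snd)
  have h2 := TC.foldl_inv (f := fun (s : Un) (c : ℕ) => Un.mk (max s.val c.size)) h1
    (TC.const (Un.mk 0)) hl (fun x t => t.val ≤ wid (l x)) (fun x _ => wid (l x))
    (fun x _ => Nat.zero_le _)
    (fun x _ t a ha ht => ⟨trivial, by simpa using ht, max_le ht (size_le_wid ha)⟩)
    (hb.mono (fun x _ => by simp))
  refine TC.of_eq h2 (fun x => ?_)
  show _ = Un.mk ((l x).foldl (fun m c => max m c.size) 0)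
  generalize 0 = m
  induction l x generalizing m with
  | nil => rfl
  | cons c r ih => exact ih _

/-- the exact convolution, compositional form with the width given in unary -/
theorem tc_conv_tu {g : ℕ → ℕ} (hg : Monotone g) (hm : MulTC g)
    {a b : α → List ℕ} {p : α → ℕ} (ha : TC D T a) (hb : TC D T b) (hp : TU D T p)
    (h : ∀ x, D x → Bd (p x) (a x) ∧ Bd (p x) (b x))
    (hT : Bud D T (fun x => convCost g ((a x).length + (b x).length) (p x))) :
    TC D T (fun x => conv (a x) (b x)) := by
  have hn : TU D T (fun x => (a x).length + (b x).length) := (TU.length ha).add (TU.length hb)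
  have hy : TU D T (fun x => ((a x).length + (b x).length).size) := TU.size hn.toNat
  have hP : TU D T (fun x => 2 * p x + 3 * ((a x).length + (b x).length).size + 2) :=
    ((hp.const_mul 2).add (hy.const_mul 3)).add (TU.const 2)
  have hN2 : TU D T (fun x => 2 ^ (((a x).length + (b x).length).size + 2)) :=
    TU.twoPow (hy.add (TU.const 2)) (((hn.bud.const_mul 8).add (Bud.const 4)).mono (fun x _ => by
      have := two_pow_size_le ((a x).length + (b x).length)
      rw [pow_add]
      omega))
  have hle : ∀ x, (a x).length + (b x).length ≤ 2 ^ (((a x).length + (b x).length).size + 2) := by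
    intro x
    have := Nat.lt_size_self ((a x).length + (b x).length)
    rw [pow_add]
    omega
  have h1 := tc_nmul' hg hm hP hy
    (ha.append (TC.replicate_const 0 (hN2.sub (TU.length ha))))
    (hb.append (TC.replicate_const 0 (hN2.sub (TU.length hb))))
    (fun x hx => by
      have := hle x
      refine ⟨by simp; omega, by simp; omega, ?_, ?_⟩
      · exact ((h x hx).1.mono (by omega)).append (Bd.replicate_zero _ _)
      · exact ((h x hx).2.mono (by omega)).append (Bd.replicate_zero _ _))
    ((hT.const_mul 48).mono (fun x _ => nmul_cost_le hg _ _))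
  have hs : TU D T (fun x => scl ((a x).length + (b x).length).size) :=
    hy.add (TU.size hy.toNat)
  have h2 := TC.mapCtx_lin (f := fun (k : Un) (c : ℕ) => c / 2 ^ k.val)
    (TC.natDivTwoPow TC.id.snd (TU.val TC.id.fst)) hs (TC.take hn h1)
    ((hT.const_mul 2).mono (fun x _ => by
      have h3 := vol_le_convCost g ((a x).length + (b x).length) (p x)
      have h4 := scl_le ((a x).length + (b x).length).size
      rw [sz_un]
      calc _ ≤ ((a x).length + (b x).length + 1) *
            (2 * (p x + ((a x).length + (b x).length).size + 1)) :=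
            Nat.mul_le_mul ((List.length_take_le _ _).trans (Nat.le_succ _)) (by
              show scl _ ≤ _
              omega)
        _ = 2 * (((a x).length + (b x).length + 1) *
            (p x + ((a x).length + (b x).length).size + 1)) := by ring
        _ ≤ _ := Nat.mul_le_mul_left 2 h3))
  refine h2.congr (fun x hx => ?_)
  have h4 := scl_le ((a x).length + (b x).length).size
  exact (conv_eq (hle x) (h x hx).1 (h x hx).2 (by omega)).symm

/-- the exact convolution, compositional form: `n` bounds the total length, `p` the width -/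
theorem tc_conv_of {g : ℕ → ℕ} (hg : Monotone g) (hm : MulTC g)
    {a b : α → List ℕ} (ha : TC D T a) (hb : TC D T b) (n p : α → ℕ)
    (h : ∀ x, D x → (a x).length + (b x).length ≤ n x ∧ Bd (p x) (a x) ∧ Bd (p x) (b x))
    (hT : Bud D T (fun x => convCost g (n x) (p x))) :
    TC D T (fun x => conv (a x) (b x)) := by
  have hv : ∀ {l : α → List ℕ}, (∀ x, D x → (l x).length ≤ n x ∧ Bd (p x) (l x)) →
      Bud D T (fun x => (l x).length * wid (l x)) := by
    intro l hl
    refine hT.mono (fun x hx => le_trans ?_ (vol_le_convCost g _ _))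
    have h1 := wid_le (hl x hx).2
    have h2 := (hl x hx).1
    exact Nat.mul_le_mul (by omega) (by omega)
  have hwa := tu_wid ha (hv (fun x hx => ⟨by have := (h x hx).1; omega, (h x hx).2.1⟩))
  have hwb := tu_wid hb (hv (fun x hx => ⟨by have := (h x hx).1; omega, (h x hx).2.2⟩))
  exact tc_conv_tu hg hm ha hb (hwa.max hwb)
    (fun x _ => ⟨(bd_wid _).mono (le_max_left _ _), (bd_wid _).mono (le_max_right _ _)⟩)
    (hT.mono (fun x hx => convCost_mono hg (h x hx).1
      (max_le (wid_le (h x hx).2.1) (wid_le (h x hx).2.2))))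

/-- **one round of boosting** -/
theorem mulTC_boost {g : ℕ → ℕ} (hg : Monotone g) (hm : MulTC g) : MulTC (boost g) := by
  unfold MulTC
  set T : ℕ × ℕ → ℕ :=
    fun q => (q.1.size + q.2.size + 1) * boost g (q.1.size + q.2.size) with hT
  have hm' : TU (fun _ => True) T (fun q : ℕ × ℕ => q.1.size + q.2.size) :=
    (TU.size TC.id.fst).add (TU.size TC.id.snd)
  have hb : TU (fun _ => True) T (fun q : ℕ × ℕ => (q.1.size + q.2.size).size + 1) :=
    (TU.size hm'.toNat).add (TU.const 1)
  have hK : TU (fun _ => True) T (fun q : ℕ × ℕ => nd (q.1.size + q.2.size)) :=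
    (hm'.div hb).add (TU.const 1)
  have hKb : Bud (fun _ => True) T
      (fun q : ℕ × ℕ => nd (q.1.size + q.2.size) * ((q.1.size + q.2.size).size + 1)) :=
    ((hm'.bud.const_mul 2).add (Bud.const 1)).mono (fun q _ => nd_mul_le _)
  have h1 := tc_digs hb hK TC.id.fst hKb
  have h2 := tc_digs hb hK TC.id.snd hKb
  have h3 := tc_conv_tu hg hm h1 h2 hb (fun _ _ => ⟨bd_digs _ _ _, bd_digs _ _ _⟩)
    (Bud.of_le_mul 216 (fun q _ => by
      simp only [length_digs]
      exact convCost_nd hg _))
  have h4 := tc_ev (fun q => (q.1.size + q.2.size).size + 1 +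
      ((q.1.size + q.2.size).size + 1) + ((q.1.size + q.2.size).size + 1)) hb h3
    (fun q _ => ⟨Nat.succ_pos _, conv_bd (bd_digs _ _ _) (bd_digs _ _ _)
      (by rw [length_digs]; exact nd_le_two_pow _)⟩)
    ((hKb.const_mul 10).mono (fun q _ => by
      simp only [length_conv, length_digs]
      calc _ ≤ (2 * nd (q.1.size + q.2.size)) * (5 * ((q.1.size + q.2.size).size + 1)) :=
            Nat.mul_le_mul (by omega) (by omega)
        _ = _ := by ring))
  refine h4.of_eq (fun q => ev_conv_digs ?_ ?_)
  · refine (Nat.lt_size_self _).trans_le (Nat.pow_le_pow_right (by norm_num) ?_)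
    exact (Nat.le_add_right _ _).trans (le_mul_nd _)
  · refine (Nat.lt_size_self _).trans_le (Nat.pow_le_pow_right (by norm_num) ?_)
    exact (Nat.le_add_left _ _).trans (le_mul_nd _)

theorem mulTC_id : MulTC (fun m => m) := tc_mulSchool'

/-- products at cost `(log m) ^ 2` per bit -/
theorem mulTC_g1 : MulTC g1 := (mulTC_boost monotone_id mulTC_id).mono 25 boost_id_le

/-- products at cost `log m * (log log m) ^ 2` per bit -/
theorem mulTC_g2 : MulTC g2 := (mulTC_boost g1_mono mulTC_g1).mono 148 boost_g1_le

/-- **the exact convolution**: `n` bounds both lengths, `p` the width of the entries -/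
theorem tc_conv {a b : α → List ℕ} (ha : TC D T a) (hb : TC D T b) (n p : α → ℕ)
    (h : ∀ x, D x → (a x).length ≤ n x ∧ (b x).length ≤ n x ∧ Bd (p x) (a x) ∧ Bd (p x) (b x))
    (hT : Bud D T (fun x => cmu (n x) (p x))) : TC D T (fun x => conv (a x) (b x)) :=
  tc_conv_of g1_mono mulTC_g1 ha hb (fun x => 2 * n x) p
    (fun x hx => by
      obtain ⟨h1, h2, h3⟩ := h x hx
      exact ⟨by omega, h3⟩)
    (((hT.const_mul 32).const_mul 68).mono (fun x _ =>
      (convCost_g1_le _ _).trans (Nat.mul_le_mul_left _ (cmu_two_mul _ _))))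

/-- the cost of the convolution read off the data -/
def convT (q : List ℕ × List ℕ) : ℕ :=
  cmu (max q.1.length q.2.length) (max (wid q.1) (wid q.2))

theorem convT_le {r p : ℕ} {a b : List ℕ} (ha : a.length ≤ r) (hb : b.length ≤ r) (ha' : Bd p a)
    (hb' : Bd p b) : convT (a, b) ≤ cmu r p :=
  cmu_mono (max_le ha hb) (max_le (wid_le ha') (wid_le hb'))

/-- the exact convolution as a total function -/
theorem tc_conv_total : TC (fun _ => True) convT (fun q : List ℕ × List ℕ => conv q.1 q.2) :=
  tc_conv TC.id.fst TC.id.snd _ _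
    (fun _ _ => ⟨le_max_left _ _, le_max_right _ _, (bd_wid _).mono (le_max_left _ _),
      (bd_wid _).mono (le_max_right _ _)⟩) Bud.self

/-- **the fast product**: `m` bounds the binary sizes of both factors -/
theorem tc_natMul {a b : α → ℕ} (ha : TC D T a) (hb : TC D T b) (m : α → ℕ)
    (h : ∀ x, D x → a x < 2 ^ m x ∧ b x < 2 ^ m x)
    (hT : Bud D T (fun x => (m x + 1) * g2 (m x))) : TC D T (fun x => a x * b x) := by
  refine tc_mul mulTC_g2 ha hb ((hT.const_mul 16).mono (fun x hx => ?_))
  have h1 := Nat.size_le.2 (h x hx).1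
  have h2 := Nat.size_le.2 (h x hx).2
  exact (Nat.mul_le_mul (by omega : _ ≤ 2 * (m x + 1))
    ((g2_mono (by omega : _ ≤ 2 * m x)).trans (g2_two_mul _))).trans (le_of_eq (by ring))

end

end Crest.Agent.X326.Mul
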