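import Crest.Agent.X326.Mul.Cost

/-!
# The base multiplier: widths, digits and the cost formulas (no machines)

* `wid l` : the largest binary size of an entry of `l`.
* `digs b K x` : the first `K` digits of `x` in base `2 ^ b`.
* `convCost g n p` : cost of one exact convolution (total length `n`, entries of `p` bits) when
  the products of `m`-bit numbers cost `g m` per bit.
* `boost g` : the cost per bit of the multiplier built from that convolution.
-/

set_option autoImplicit false

namespace Crest.Agent.X326.Mul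

/-! ### widths -/

/-- the largest binary size of an entry -/
def wid (l : List ℕ) : ℕ := l.foldl (fun m c => max m c.size) 0

theorem foldl_wid_le {p : ℕ} {l : List ℕ} (h : Bd p l) {m : ℕ} (hm : m ≤ p) :
    l.foldl (fun m c => max m c.size) m ≤ p := by
  induction l generalizing m with
  | nil => exact hm
  | cons c l ih =>
    rw [List.foldl_cons]
    exact ih (fun d hd => h d (by simp [hd])) (max_le hm (Nat.size_le.2 (h c (by simp))))

theorem wid_le {p : ℕ} {l : List ℕ} (h : Bd p l) : wid l ≤ p := foldl_wid_le h (Nat.zero_le _)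

theorem le_foldl_wid (l : List ℕ) (m : ℕ) : m ≤ l.foldl (fun m c => max m c.size) m ∧
    ∀ c ∈ l, c.size ≤ l.foldl (fun m c => max m c.size) m := by
  induction l generalizing m with
  | nil => simp
  | cons c l ih =>
    rw [List.foldl_cons]
    obtain ⟨h1, h2⟩ := ih (max m c.size)
    refine ⟨(le_max_left _ _).trans h1, fun d hd => ?_⟩
    rcases List.mem_cons.1 hd with rfl | hd
    · exact (le_max_right _ _).trans h1
    · exact h2 d hd

theorem size_le_wid {l : List ℕ} {c : ℕ} (hc : c ∈ l) : c.size ≤ wid l := (le_foldl_wid l 0).2 c hc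

theorem bd_wid (l : List ℕ) : Bd (wid l) l := fun _ hc => Nat.size_le.1 (size_le_wid hc)

theorem bd_iff_wid_le {p : ℕ} {l : List ℕ} : Bd p l ↔ wid l ≤ p :=
  ⟨wid_le, fun h => (bd_wid l).mono h⟩

/-! ### digits -/

/-- the first `K` digits in base `2 ^ b` -/
def digs (b K x : ℕ) : List ℕ := (List.range K).map (fun i => x / 2 ^ (b * i) % 2 ^ b)

@[simp] theorem length_digs (b K x : ℕ) : (digs b K x).length = K := by simp [digs]

theorem bd_digs (b K x : ℕ) : Bd b (digs b K x) := fun c hc => by
  obtain ⟨i, _, rfl⟩ := List.mem_map.1 hc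
  exact Nat.mod_lt _ (by positivity)

theorem digs_succ (b K x : ℕ) : digs b (K + 1) x = x % 2 ^ b :: digs b K (x / 2 ^ b) := by
  unfold digs
  rw [List.range_succ_eq_map, List.map_cons, List.map_map]
  congr 1
  · simp
  · refine List.map_congr_left (fun i _ => ?_)
    simp only [Function.comp_apply, Nat.succ_eq_add_one]
    rw [Nat.div_div_eq_div_mul, ← pow_add]
    congr 3
    ring

theorem ev_digs_mod (b K x : ℕ) : ev (2 ^ b) (digs b K x) = x % 2 ^ (b * K) := by
  induction K generalizing x with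
  | zero => simp [digs, Nat.mod_one]
  | succ K ih =>
    rw [digs_succ, ev_cons, ih, mul_add, mul_one, pow_add, mul_comm (2 ^ (b * K)), Nat.mod_mul]
    rfl

theorem ev_digs {b K x : ℕ} (h : x < 2 ^ (b * K)) : ev (2 ^ b) (digs b K x) = x := by
  rw [ev_digs_mod, Nat.mod_eq_of_lt h]

/-- the product through one convolution of digit lists -/
theorem ev_conv_digs {b K x y : ℕ} (hx : x < 2 ^ (b * K)) (hy : y < 2 ^ (b * K)) :
    ev (2 ^ b) (conv (digs b K x) (digs b K y)) = x * y := by
  rw [ev_conv, ev_digs hx, ev_digs hy]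

/-! ### sizes -/

theorem size_mono {a b : ℕ} (h : a ≤ b) : a.size ≤ b.size := Nat.size_le_size h

theorem size_mul_le (a b : ℕ) : (a * b).size ≤ a.size + b.size := by
  rw [Nat.size_le, pow_add]
  exact Nat.mul_lt_mul'' (Nat.lt_size_self a) (Nat.lt_size_self b)

theorem size_add_le (a b : ℕ) : (a + b).size ≤ a.size + b.size := by
  rcases Nat.eq_zero_or_pos a with rfl | ha
  · simp
  rcases Nat.eq_zero_or_pos b with rfl | hb
  · simp
  rw [Nat.size_le, pow_add]
  have h1 := Nat.lt_size_self a
  have h2 := Nat.lt_size_self b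
  generalize 2 ^ a.size = A at *
  generalize 2 ^ b.size = B at *
  nlinarith

theorem size_succ_le (a : ℕ) : (a + 1).size ≤ a.size + 1 := by
  simpa using size_add_le a 1

/-! ### cost formulas -/

/-- cost of one exact convolution: total length `n`, entries below `2 ^ p` -/
def convCost (g : ℕ → ℕ) (n p : ℕ) : ℕ :=
  (n + 1) * (p + n.size + 1) * ((n.size + 1) * (g (6 * (p + n.size + 1)) + n.size.size + 1))

theorem convCost_mono {g : ℕ → ℕ} (hg : Monotone g) {n n' p p' : ℕ} (hn : n ≤ n') (hp : p ≤ p') :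
    convCost g n p ≤ convCost g n' p' := by
  have h1 := size_mono hn
  have h2 := size_mono h1
  have h3 : g (6 * (p + n.size + 1)) ≤ g (6 * (p' + n'.size + 1)) := hg (by omega)
  unfold convCost
  gcongr

theorem vol_le_convCost (g : ℕ → ℕ) (n p : ℕ) : (n + 1) * (p + n.size + 1) ≤ convCost g n p :=
  Nat.le_mul_of_pos_right _ (by positivity)

/-- the parameters of the negacyclic product behind a convolution -/
theorem nmul_cost_le {g : ℕ → ℕ} (hg : Monotone g) (n p : ℕ) :
    2 ^ (n.size + 2) * (2 * p + 3 * n.size + 2 + 1) *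
      (2 ^ n.size.size * (g (2 * (2 * p + 3 * n.size + 2)) + n.size.size + 1)) ≤
      48 * convCost g n p := by
  have h1 : 2 ^ (n.size + 2) ≤ 8 * (n + 1) := by
    have := two_pow_size_le n
    rw [pow_add]
    omega
  have h2 : 2 ^ n.size.size ≤ 2 * (n.size + 1) := by
    have := two_pow_size_le n.size
    omega
  have h3 : 2 * p + 3 * n.size + 2 + 1 ≤ 3 * (p + n.size + 1) := by omega
  have h4 : g (2 * (2 * p + 3 * n.size + 2)) ≤ g (6 * (p + n.size + 1)) := hg (by omega)
  calc _ ≤ 8 * (n + 1) * (3 * (p + n.size + 1)) *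
        (2 * (n.size + 1) * (g (6 * (p + n.size + 1)) + n.size.size + 1)) := by gcongr
    _ = 48 * convCost g n p := by unfold convCost; ring

/-- cost per bit of the multiplier built on a multiplier of cost `g` per bit -/
def boost (g : ℕ → ℕ) (m : ℕ) : ℕ := (m.size + 1) * (g (24 * (m.size + 1)) + m.size.size + 1)

theorem boost_mono {g : ℕ → ℕ} (hg : Monotone g) : Monotone (boost g) := by
  intro a b h
  have h1 := size_mono h
  have h2 := size_mono h1
  have h3 : g (24 * (a.size + 1)) ≤ g (24 * (b.size + 1)) := hg (by omega)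
  unfold boost
  gcongr

theorem boost_pos (g : ℕ → ℕ) (m : ℕ) : 0 < boost g m := by unfold boost; positivity

/-- the number of digits of width `size m + 1` -/
def nd (m : ℕ) : ℕ := m / (m.size + 1) + 1

theorem le_mul_nd (m : ℕ) : m ≤ (m.size + 1) * nd m := by
  unfold nd
  exact (Nat.lt_mul_div_succ m (Nat.succ_pos _)).le

theorem nd_le (m : ℕ) : nd m ≤ m + 1 := Nat.succ_le_succ (Nat.div_le_self _ _)

theorem nd_mul_le (m : ℕ) : nd m * (m.size + 1) ≤ 2 * m + 1 := by
  have h1 := Nat.div_mul_le_self m (m.size + 1)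
  have h2 := size_le_self m
  unfold nd
  rw [add_mul, one_mul]
  omega

theorem size_two_nd (m : ℕ) : (nd m + nd m).size ≤ m.size + 2 := by
  rw [Nat.size_le, pow_add]
  have h1 := nd_le m
  have h2 := Nat.lt_size_self m
  omega

theorem nd_le_two_pow (m : ℕ) : nd m ≤ 2 ^ (m.size + 1) := by
  have h1 := nd_le m
  have h2 := Nat.lt_size_self m
  rw [pow_succ]
  omega

theorem convCost_nd {g : ℕ → ℕ} (hg : Monotone g) (m : ℕ) :
    convCost g (nd m + nd m) (m.size + 1) ≤ 216 * ((m + 1) * boost g m) := by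
  have h1 := size_two_nd m
  have h2 : (nd m + nd m).size.size ≤ m.size.size + 2 :=
    (size_mono h1).trans (size_add_le _ 2)
  have h3 : g (6 * (m.size + 1 + (nd m + nd m).size + 1)) ≤ g (24 * (m.size + 1)) :=
    hg (by omega)
  have h4 : (nd m + nd m + 1) * (m.size + 1 + (nd m + nd m).size + 1) ≤ 24 * (m + 1) := by
    have h5 := nd_mul_le m
    have h6 : 1 ≤ nd m := Nat.succ_pos _
    calc _ ≤ (3 * nd m) * (4 * (m.size + 1)) := Nat.mul_le_mul (by omega) (by omega)
      _ = 12 * (nd m * (m.size + 1)) := by ring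
      _ ≤ _ := by omega
  calc _ ≤ 24 * (m + 1) * ((3 * (m.size + 1)) *
        (3 * (g (24 * (m.size + 1)) + m.size.size + 1))) :=
        Nat.mul_le_mul h4 (Nat.mul_le_mul (by omega) (by omega))
    _ = _ := by unfold boost; ring

/-- cost per bit after one round -/
def g1 (m : ℕ) : ℕ := (m.size + 1) ^ 2

/-- cost per bit after two rounds -/
def g2 (m : ℕ) : ℕ := (m.size + 1) * (m.size.size + 1) ^ 2

theorem g1_mono : Monotone g1 := fun a b h => by
  have := size_mono h
  unfold g1
  gcongr

theorem g2_mono : Monotone g2 := fun a b h => by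
  have h1 := size_mono h
  have h2 := size_mono h1
  unfold g2
  gcongr

theorem g2_two_mul (m : ℕ) : g2 (2 * m) ≤ 8 * g2 m := by
  have h1 : (2 * m).size ≤ m.size + 1 := by
    rw [Nat.size_le, pow_succ]
    have := Nat.lt_size_self m
    omega
  have h2 : (2 * m).size.size ≤ m.size.size + 1 := (size_mono h1).trans (size_succ_le _)
  have h3 : ((2 * m).size.size + 1) ^ 2 ≤ (2 * (m.size.size + 1)) ^ 2 :=
    Nat.pow_le_pow_left (by omega) 2
  unfold g2
  calc _ ≤ (2 * (m.size + 1)) * (2 * (m.size.size + 1)) ^ 2 := Nat.mul_le_mul (by omega) h3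
    _ = _ := by ring

theorem boost_id_le (m : ℕ) : boost (fun m => m) m ≤ 25 * g1 m := by
  have h := size_le_self m.size
  unfold boost g1
  calc _ ≤ (m.size + 1) * (25 * (m.size + 1)) := Nat.mul_le_mul_left _ (by beta_reduce; omega)
    _ = _ := by ring

theorem g1_mul_le {c s : ℕ} (k w : ℕ) (hc : c < 2 ^ k) (hs : s ≤ w.size) :
    g1 (c * w) + s + 1 ≤ ((k + 1) ^ 2 + 1) * (w.size + 1) ^ 2 := by
  have h1 : (c * w).size ≤ k + w.size :=
    (size_mul_le c w).trans (Nat.add_le_add_right (Nat.size_le.2 hc) _)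
  have h2 : (c * w).size + 1 ≤ (k + 1) * (w.size + 1) := by nlinarith
  have h3 := Nat.pow_le_pow_left h2 2
  rw [mul_pow] at h3
  have h4 : w.size + 1 ≤ (w.size + 1) ^ 2 := Nat.le_self_pow (by norm_num) _
  unfold g1
  rw [add_mul, one_mul]
  omega

theorem boost_g1_le (m : ℕ) : boost g1 m ≤ 148 * g2 m := by
  have h1 := g1_mul_le (c := 24) (s := m.size.size) 5 (m.size + 1) (by norm_num)
    (size_mono (Nat.le_succ _))
  have h2 := size_succ_le m.size
  have h3 : ((m.size + 1).size + 1) ^ 2 ≤ (2 * (m.size.size + 1)) ^ 2 :=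
    Nat.pow_le_pow_left (by omega) 2
  unfold boost g2
  calc _ ≤ (m.size + 1) * (((5 + 1) ^ 2 + 1) * (2 * (m.size.size + 1)) ^ 2) :=
        Nat.mul_le_mul_left _ (h1.trans (Nat.mul_le_mul_left _ h3))
    _ = _ := by ring

/-- **cost of the exact convolution**: lengths at most `n`, entries below `2 ^ p` -/
def cmu (n p : ℕ) : ℕ :=
  (n + 1) * ((p + n.size + 1) * (n.size + 1) * ((p + n.size).size + 1) ^ 2)

theorem cmu_mono {n n' p p' : ℕ} (hn : n ≤ n') (hp : p ≤ p') : cmu n p ≤ cmu n' p' := by
  have h1 := size_mono hn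
  have h2 : (p + n.size).size ≤ (p' + n'.size).size := size_mono (by omega)
  unfold cmu
  gcongr

theorem vol_le_cmu (n p : ℕ) : (n + 1) * (p + n.size + 1) ≤ cmu n p := by
  unfold cmu
  rw [mul_assoc (p + n.size + 1)]
  exact Nat.mul_le_mul_left _ (Nat.le_mul_of_pos_right _ (by positivity))

theorem convCost_g1_le (n p : ℕ) : convCost g1 n p ≤ 68 * cmu n p := by
  have h1 := g1_mul_le (c := 6) (s := n.size.size) 3 (p + n.size + 1) (by norm_num)
    (size_mono (by omega))
  have h2 := size_succ_le (p + n.size)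
  have h3 : ((p + n.size + 1).size + 1) ^ 2 ≤ (2 * ((p + n.size).size + 1)) ^ 2 :=
    Nat.pow_le_pow_left (by omega) 2
  unfold convCost cmu
  calc _ ≤ (n + 1) * (p + n.size + 1) * ((n.size + 1) *
        (((3 + 1) ^ 2 + 1) * (2 * ((p + n.size).size + 1)) ^ 2)) :=
        Nat.mul_le_mul_left _ (Nat.mul_le_mul_left _ (h1.trans (Nat.mul_le_mul_left _ h3)))
    _ = _ := by ring

/-- doubling the length costs a constant factor -/
theorem cmu_two_mul (n p : ℕ) : cmu (2 * n) p ≤ 32 * cmu n p := by
  have h1 : (2 * n).size ≤ n.size + 1 := by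
    rw [Nat.size_le, pow_succ]
    have := Nat.lt_size_self n
    omega
  have h2 : (p + (2 * n).size).size ≤ (p + n.size).size + 1 :=
    (size_mono (by omega)).trans (size_succ_le _)
  have h3 : ((p + (2 * n).size).size + 1) ^ 2 ≤ (2 * ((p + n.size).size + 1)) ^ 2 :=
    Nat.pow_le_pow_left (by omega) 2
  unfold cmu
  calc _ ≤ (2 * (n + 1)) * ((2 * (p + n.size + 1)) * (2 * (n.size + 1)) *
        (2 * ((p + n.size).size + 1)) ^ 2) :=
        Nat.mul_le_mul (by omega) (Nat.mul_le_mul (Nat.mul_le_mul (by omega) (by omega)) h3)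
    _ = _ := by ring

end Crest.Agent.X326.Mul
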