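import Crest.Agent.X326.Mul.Defs

/-!
# Correctness of the Schoenhage-Nussbaumer recursion
-/

set_option autoImplicit false

namespace Crest.Agent.X326.Mul

open Polynomial

/-! ### coefficient arithmetic -/

section coeff

variable {A : Type} [CommRing A] {P : ℕ}

theorem cast_mod (h2 : (2 : A) ^ P = 0) (a : ℕ) : ((a % 2 ^ P : ℕ) : A) = a := by
  conv_rhs => rw [← Nat.mod_add_div a (2 ^ P)]
  push_cast
  rw [h2]
  simp

theorem cast_addM (h2 : (2 : A) ^ P = 0) (a b : ℕ) : ((addM P a b : ℕ) : A) = a + b := by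
  rw [addM, cast_mod h2, Nat.cast_add]

theorem cast_negM (h2 : (2 : A) ^ P = 0) (a : ℕ) : ((negM P a : ℕ) : A) = -a := by
  have h : a % 2 ^ P ≤ 2 ^ P := (Nat.mod_lt _ (by positivity)).le
  rw [negM, cast_mod h2, Nat.cast_sub h, cast_mod h2]
  push_cast
  rw [h2, zero_sub]

theorem cast_subM (h2 : (2 : A) ^ P = 0) (a b : ℕ) : ((subM P a b : ℕ) : A) = a - b := by
  rw [subM, cast_addM h2, cast_negM h2, sub_eq_add_neg]

theorem cast_mulM (h2 : (2 : A) ^ P = 0) (a b : ℕ) : ((mulM P a b : ℕ) : A) = a * b := by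
  rw [mulM, cast_mod h2, Nat.cast_mul]

theorem ev_vadd (h2 : (2 : A) ^ P = 0) (z : A) {u v : List ℕ} (h : u.length = v.length) :
    ev z (vadd P u v) = ev z u + ev z v := by
  have := hor_zipWith z 1 1 (φ := fun c : ℕ => (c : A)) (f := addM P) h
    (fun a _ b _ => by rw [cast_addM h2]; ring)
  simpa [ev, vadd] using this

theorem ev_vsub (h2 : (2 : A) ^ P = 0) (z : A) {u v : List ℕ} (h : u.length = v.length) :
    ev z (vsub P u v) = ev z u - ev z v := by
  have := hor_zipWith z 1 (-1) (φ := fun c : ℕ => (c : A)) (f := subM P) h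
    (fun a _ b _ => by rw [cast_subM h2]; ring)
  simpa [ev, vsub, sub_eq_add_neg] using this

theorem ev_map_negM (h2 : (2 : A) ^ P = 0) (z : A) (u : List ℕ) :
    ev z (u.map (negM P)) = - ev z u := by
  have := hor_map_mul z (-1) (φ := fun c : ℕ => (c : A)) (ψ := fun c : ℕ => (c : A))
    (g := negM P) (l := u) (fun a _ => by rw [cast_negM h2]; ring)
  simpa [ev] using this

theorem ev_map_mulM (h2 : (2 : A) ^ P = 0) (z : A) (c : ℕ) (u : List ℕ) :
    ev z (u.map (mulM P c)) = c * ev z u :=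
  hor_map_mul z (c : A) (φ := fun c : ℕ => (c : A)) (ψ := fun c : ℕ => (c : A))
    (g := mulM P c) (l := u) (fun a _ => by rw [cast_mulM h2])

theorem ev_rotc (h2 : (2 : A) ^ P = 0) {z : A} {n c : ℕ} (hz : z ^ n = -1) (hc : c ≤ n)
    {u : List ℕ} (hu : u.length = n) : ev z (rotc P c u) = z ^ (n - c) * ev z u := by
  have e1 : ev z u = ev z (u.take c) + z ^ c * ev z (u.drop c) :=
    hor_take_drop z _ u (hu ▸ hc)
  have e2 : z ^ (n - c) * z ^ c = -1 := by rw [← pow_add, Nat.sub_add_cancel hc, hz]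
  rw [rotc, ev_append, ev_map_negM h2, List.length_map, List.length_drop, hu, e1]
  linear_combination (-ev z (u.drop c)) * e2

end coeff

/-! ### lengths -/

@[simp] theorem length_vadd (P : ℕ) (u v : List ℕ) :
    (vadd P u v).length = min u.length v.length := by simp [vadd]

@[simp] theorem length_vsub (P : ℕ) (u v : List ℕ) :
    (vsub P u v).length = min u.length v.length := by simp [vsub]

@[simp] theorem length_rotc (P c : ℕ) (u : List ℕ) : (rotc P c u).length = u.length := by
  simp [rotc]; omega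

theorem Shape.take {t t' n : ℕ} {L : List (List ℕ)} (h : Shape (t + t') n L) :
    Shape t n (L.take t) :=
  ⟨by simp [h.1], fun u hu => h.2 u (List.mem_of_mem_take hu)⟩

theorem Shape.drop {t t' n : ℕ} {L : List (List ℕ)} (h : Shape (t + t') n L) :
    Shape t' n (L.drop t) :=
  ⟨by simp [h.1], fun u hu => h.2 u (List.mem_of_mem_drop hu)⟩

theorem Shape.map {t n n' : ℕ} {L : List (List ℕ)} (h : Shape t n L) {g : List ℕ → List ℕ}
    (hg : ∀ u, u.length = n → (g u).length = n') : Shape t n' (L.map g) := by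
  refine ⟨by simp [h.1], fun u hu => ?_⟩
  obtain ⟨v, hv, rfl⟩ := List.mem_map.1 hu
  exact hg v (h.2 v hv)

theorem mem_zipWith {α β γ : Type} {f : α → β → γ} {u : List α} {v : List β} {c : γ}
    (h : c ∈ List.zipWith f u v) : ∃ a ∈ u, ∃ b ∈ v, c = f a b := by
  induction u generalizing v with
  | nil => simp at h
  | cons a u ih =>
    cases v with
    | nil => simp at h
    | cons b v =>
      rcases List.mem_cons.1 h with rfl | h
      · exact ⟨a, by simp, b, by simp, rfl⟩
      · obtain ⟨a', ha, b', hb, rfl⟩ := ih h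
        exact ⟨a', by simp [ha], b', by simp [hb], rfl⟩

theorem Shape.zipWith {t n : ℕ} {L L' : List (List ℕ)} (h : Shape t n L) (h' : Shape t n L')
    {g : List ℕ → List ℕ → List ℕ}
    (hg : ∀ u v, u.length = n → v.length = n → (g u v).length = n) :
    Shape t n (List.zipWith g L L') := by
  refine ⟨by simp [h.1, h'.1], fun u hu => ?_⟩
  obtain ⟨a, ha, b, hb, rfl⟩ := mem_zipWith hu
  exact hg a b (h.2 a ha) (h'.2 b hb)

theorem Shape.append {t t' n : ℕ} {L L' : List (List ℕ)} (h : Shape t n L) (h' : Shape t' n L') :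
    Shape (t + t') n (L ++ L') := by
  refine ⟨by simp [h.1, h'.1], fun u hu => ?_⟩
  rcases List.mem_append.1 hu with hu | hu
  exacts [h.2 u hu, h'.2 u hu]

theorem Shape.length_flatten {t n : ℕ} {L : List (List ℕ)} (h : Shape t n L) :
    L.flatten.length = t * n := by
  obtain ⟨rfl, h⟩ := h
  induction L with
  | nil => simp
  | cons u L ih =>
    rw [List.flatten_cons, List.length_append, h u (by simp), ih (fun v hv => h v (by simp [hv])),
      List.length_cons]
    ring

theorem Shape.singleton {n : ℕ} {u : List ℕ} (h : u.length = n) : Shape 1 n [u] :=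
  ⟨rfl, fun v hv => by rw [List.mem_singleton.1 hv, h]⟩

theorem Shape.eq_singleton {n : ℕ} {L : List (List ℕ)} (h : Shape 1 n L) : L = [L.flatten] := by
  obtain ⟨u, rfl⟩ := List.length_eq_one_iff.1 h.1
  simp

theorem Shape.fwdP {P t n c : ℕ} {a : List (List ℕ)} (h : Shape (t + t) n a) :
    Shape t n (fwdP P t c a) :=
  h.take.zipWith (h.drop.map (fun u hu => by simp [hu])) (fun u v hu hv => by simp [hu, hv])

theorem Shape.fwdM {P t n c : ℕ} {a : List (List ℕ)} (h : Shape (t + t) n a) :
    Shape t n (fwdM P t c a) :=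
  h.take.zipWith (h.drop.map (fun u hu => by simp [hu])) (fun u v hu hv => by simp [hu, hv])

theorem Shape.join {P t n f : ℕ} {u v : List (List ℕ)} (hu : Shape t n u) (hv : Shape t n v) :
    Shape (t + t) n (join P f u v) :=
  (hu.zipWith hv (fun u v hu hv => by simp [hu, hv])).append
    ((hv.zipWith hu (fun u v hu hv => by simp [hu, hv])).map (fun u hu => by simp [hu]))

theorem length_cut {α : Type} (B t : ℕ) (l : List α) : (cut B t l).length = t := by
  induction t generalizing l with
  | zero => rfl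
  | succ t ih => simp [cut, ih]

theorem length_of_mem_cut {α : Type} {B t : ℕ} {l : List α} (h : l.length = t * B) :
    ∀ u ∈ cut B t l, u.length = B := by
  induction t generalizing l with
  | zero => simp [cut]
  | succ t ih =>
    intro u hu
    have h1 : B ≤ l.length := by rw [h]; nlinarith
    rcases List.mem_cons.1 hu with rfl | hu
    · simp [h1]
    · exact ih (l := l.drop B) (by rw [List.length_drop, h]; ring_nf; omega) u hu

theorem flatten_cut {α : Type} {B t : ℕ} {l : List α} (h : l.length = t * B) :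
    (cut B t l).flatten = l := by
  induction t generalizing l with
  | zero => simpa [cut] using (List.length_eq_zero_iff.1 (by simpa using h)).symm
  | succ t ih =>
    rw [cut, List.flatten_cons, ih (by rw [List.length_drop, h]; ring_nf; omega),
      List.take_append_drop]

theorem shape_cut {B t : ℕ} {l : List ℕ} (h : l.length = t * B) : Shape t B (cut B t l) :=
  ⟨length_cut _ _ _, length_of_mem_cut h⟩

theorem shape_emb {B t : ℕ} {l : List ℕ} (h : l.length = t * B) : Shape t (B + B) (emb B t l) :=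
  (shape_cut h).map (fun u hu => by simp [hu])

theorem length_unemb {P B c t : ℕ} {L : List (List ℕ)} (h : Shape t (B + B) L) :
    (unemb P B c L).length = t * B := by
  have h1 : Shape t B (L.map (List.take B)) := h.map (fun u hu => by simp [hu])
  have h2 : Shape t B (L.map (List.drop B)) := h.map (fun u hu => by simp [hu])
  rw [unemb, length_vadd, length_rotc, h1.length_flatten, h2.length_flatten, min_self]

theorem length_school (P : ℕ) (u v : List ℕ) : (school P u v).length = v.length := by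
  simp [school, schoolStep]

/-! ### values of the steps -/

section steps

variable {A : Type} [CommRing A] {P : ℕ}

theorem ev2_zip_vadd (h2 : (2 : A) ^ P = 0) (z Y : A) {t n : ℕ} {u v : List (List ℕ)}
    (hu : Shape t n u) (hv : Shape t n v) :
    ev2 z Y (List.zipWith (vadd P) u v) = ev2 z Y u + ev2 z Y v := by
  have := hor_zipWith Y 1 1 (φ := ev z) (f := vadd P) (hu.1.trans hv.1.symm)
    (fun a ha b hb => by rw [ev_vadd h2 z ((hu.2 a ha).trans (hv.2 b hb).symm)]; ring)
  simpa [ev2] using this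

theorem ev2_zip_vsub (h2 : (2 : A) ^ P = 0) (z Y : A) {t n : ℕ} {u v : List (List ℕ)}
    (hu : Shape t n u) (hv : Shape t n v) :
    ev2 z Y (List.zipWith (vsub P) u v) = ev2 z Y u - ev2 z Y v := by
  have := hor_zipWith Y 1 (-1) (φ := ev z) (f := vsub P) (hu.1.trans hv.1.symm)
    (fun a ha b hb => by rw [ev_vsub h2 z ((hu.2 a ha).trans (hv.2 b hb).symm)]; ring)
  simpa [ev2, sub_eq_add_neg] using this

theorem ev2_map_rotc (h2 : (2 : A) ^ P = 0) {z : A} (Y : A) {t n c : ℕ} (hz : z ^ n = -1)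
    (hc : c ≤ n) {u : List (List ℕ)} (hu : Shape t n u) :
    ev2 z Y (u.map (rotc P c)) = z ^ (n - c) * ev2 z Y u :=
  hor_map_mul Y _ (fun a ha => ev_rotc h2 hz hc (hu.2 a ha))

theorem ev2_halves (z Y : A) {t n : ℕ} {a : List (List ℕ)} (h : Shape (t + t) n a) :
    ev2 z Y a = ev2 z Y (a.take t) + Y ^ t * ev2 z Y (a.drop t) :=
  hor_take_drop Y _ a (by rw [h.1]; omega)

theorem ev2_fwdP (h2 : (2 : A) ^ P = 0) {z : A} (Y : A) {t n f : ℕ} (hz : z ^ n = -1)
    (hf : f ≤ n) {a : List (List ℕ)} (h : Shape (t + t) n a) :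
    ev2 z Y (fwdP P t (n - f) a) = ev2 z Y a - (Y ^ t - z ^ f) * ev2 z Y (a.drop t) := by
  rw [fwdP, ev2_zip_vadd h2 z Y h.take (h.drop.map (fun u hu => by simp [hu])),
    ev2_map_rotc h2 Y hz (Nat.sub_le _ _) h.drop, Nat.sub_sub_self hf, ev2_halves z Y h]
  ring

theorem ev2_fwdM (h2 : (2 : A) ^ P = 0) {z : A} (Y : A) {t n f : ℕ} (hz : z ^ n = -1)
    (hf : f ≤ n) {a : List (List ℕ)} (h : Shape (t + t) n a) :
    ev2 z Y (fwdM P t (n - f) a) = ev2 z Y a - (Y ^ t + z ^ f) * ev2 z Y (a.drop t) := by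
  rw [fwdM, ev2_zip_vsub h2 z Y h.take (h.drop.map (fun u hu => by simp [hu])),
    ev2_map_rotc h2 Y hz (Nat.sub_le _ _) h.drop, Nat.sub_sub_self hf, ev2_halves z Y h]
  ring

theorem ev2_join (h2 : (2 : A) ^ P = 0) {z : A} (Y : A) {t n f : ℕ} (hz : z ^ n = -1)
    (hf : f ≤ n) {u v : List (List ℕ)} (hu : Shape t n u) (hv : Shape t n v) :
    ev2 z Y (join P f u v) = ev2 z Y u + ev2 z Y v +
      Y ^ t * (z ^ (n - f) * (ev2 z Y v - ev2 z Y u)) := by
  have h1 : Shape t n (List.zipWith (vadd P) u v) :=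
    hu.zipWith hv (fun u v hu hv => by simp [hu, hv])
  have h3 : Shape t n (List.zipWith (vsub P) v u) :=
    hv.zipWith hu (fun u v hu hv => by simp [hu, hv])
  have e := hor_append Y (ev z) (List.zipWith (vadd P) u v)
    ((List.zipWith (vsub P) v u).map (rotc P f))
  rw [h1.1] at e
  rw [join, ev2, e]
  change ev2 z Y _ + Y ^ t * ev2 z Y _ = _
  rw [ev2_zip_vadd h2 z Y hu hv, ev2_map_rotc h2 Y hz hf h3, ev2_zip_vsub h2 z Y hv hu]

theorem ev2_emb (z Y : A) (B t : ℕ) (u : List ℕ) :
    ev2 z Y (emb B t u) = ev2 z Y (cut B t u) := by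
  rw [emb, ev2, hor_map]
  exact hor_congr Y (fun c _ => by simp [ev_append])

theorem ev2_cut (z : A) {B t : ℕ} {u : List ℕ} (h : u.length = t * B) :
    ev2 z (z ^ B) (cut B t u) = ev z u := by
  conv_rhs => rw [← flatten_cut h]
  exact (hor_flatten z _ (length_of_mem_cut h)).symm

theorem ev_unemb (h2 : (2 : A) ^ P = 0) {z : A} {B t : ℕ} (ht : 0 < t) (hz : z ^ (t * B) = -1)
    {L : List (List ℕ)} (h : Shape t (B + B) L) :
    ev z (unemb P B (t * B - B) L) = ev2 z (z ^ B) L := by
  have h1 : Shape t B (L.map (List.take B)) := h.map (fun u hu => by simp [hu])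
  have h3 : Shape t B (L.map (List.drop B)) := h.map (fun u hu => by simp [hu])
  have hB : B ≤ t * B := Nat.le_mul_of_pos_left B ht
  rw [unemb, ev_vadd h2 z (by rw [length_rotc, h1.length_flatten, h3.length_flatten]),
    ev_rotc h2 hz (Nat.sub_le _ _) h3.length_flatten, Nat.sub_sub_self hB]
  have e1 : ev z (L.map (List.take B)).flatten = hor (z ^ B) (fun u => ev z (u.take B)) L := by
    rw [← hor_map (z ^ B) (ev z) (List.take B) L]
    exact hor_flatten z _ h1.2
  have e2 : ev z (L.map (List.drop B)).flatten = hor (z ^ B) (fun u => ev z (u.drop B)) L := by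
    rw [← hor_map (z ^ B) (ev z) (List.drop B) L]
    exact hor_flatten z _ h3.2
  rw [e1, e2, ← hor_mul, ← hor_add]
  refine hor_congr _ (fun u hu => ?_)
  exact (hor_take_drop z _ u (by rw [h.2 u hu]; omega)).symm

theorem ev_school (h2 : (2 : A) ^ P = 0) {z : A} (hz : z ^ 4 = -1) {u v : List ℕ}
    (hu : u.length = 4) (hv : v.length = 4) : ev z (school P u v) = ev z u * ev z v := by
  have step : ∀ (c : ℕ) (acc : List ℕ), acc.length = 4 →
      ev z (schoolStep P v c acc) = c * ev z v + z * ev z acc := by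
    intro c acc hacc
    rw [schoolStep, ev_vadd h2 z (by simp [hv, hacc]), ev_map_mulM h2,
      ev_rotc h2 hz (by norm_num) hacc]
    simp
  match u, hu with
  | [u0, u1, u2, u3], _ =>
    rw [school, step _ _ (by simp [schoolStep, hv]), step _ _ (by simp [schoolStep, hv]),
      step _ _ (by simp [hv]), ev_map_mulM h2]
    simp
    ring

end steps

/-! ### polynomials of small degree -/

section degree

variable {A : Type} [CommRing A]

theorem degree_ev_lt (u : List ℕ) : (ev (X : A[X]) u).degree < u.length := by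
  rw [degree_lt_iff_coeff_zero]
  induction u with
  | nil => simp
  | cons c u ih =>
    intro m hm
    obtain ⟨m, rfl⟩ : ∃ j, m = j + 1 := ⟨m - 1, by simp at hm; omega⟩
    rw [ev_cons, coeff_add, coeff_X_mul, ih m (by simpa using hm), ← C_eq_natCast, coeff_C_succ,
      add_zero]

theorem degree_ev2_lt (c : A) {n : ℕ} {L : List (List ℕ)} (h : ∀ u ∈ L, u.length ≤ n) :
    (ev2 (X : A[X]) (C c) L).degree < n := by
  rw [degree_lt_iff_coeff_zero]
  induction L with
  | nil => simp [ev2]
  | cons u L ih =>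
    intro m hm
    have h1 := (degree_lt_iff_coeff_zero _ _).1 (degree_ev_lt (A := A) u) m
      ((h u (by simp)).trans hm)
    have h3 := ih (fun v hv => h v (by simp [hv])) m hm
    rw [ev2] at h3 ⊢
    rw [hor_cons, coeff_add, coeff_C_mul, h1, h3]
    simp

theorem degree_mul_lt {p q : A[X]} {m n : ℕ} (hp : p.degree < m) (hq : q.degree < n) :
    (p * q).degree < (m + n : ℕ) := by
  refine (degree_mul_le p q).trans_lt ?_
  rw [Nat.cast_add]
  exact (add_le_add_left hp.le _).trans_lt (WithBot.add_lt_add_left (by simp) hq)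

theorem degree_C_mul_lt {p : A[X]} (c : A) {n : ℕ} (hp : p.degree < n) :
    (C c * p).degree < n := by
  rw [degree_lt_iff_coeff_zero] at hp ⊢
  intro m hm
  rw [coeff_C_mul, hp m hm, mul_zero]

/-- polynomials of degree `< n` are determined by their class modulo `X ^ n + 1` -/
theorem eq_of_mk_eq {n : ℕ} (hn : n ≠ 0) {p q : A[X]} (hp : p.degree < n) (hq : q.degree < n)
    (h : AdjoinRoot.mk (X ^ n + 1 : A[X]) p = AdjoinRoot.mk (X ^ n + 1 : A[X]) q) :
    p = q := by
  rcases subsingleton_or_nontrivial A with hA | hA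
  · exact Subsingleton.elim _ _
  by_contra hne
  have hm : (X ^ n + C 1 : A[X]).Monic := monic_X_pow_add_C 1 hn
  refine hm.not_dvd_of_degree_lt (sub_ne_zero.2 hne) ?_ (AdjoinRoot.mk_eq_mk.1 h)
  rw [degree_X_pow_add_C (Nat.pos_of_ne_zero hn)]
  exact (degree_sub_le p q).trans_lt (max_lt hp hq)

theorem root_pow (n : ℕ) : (AdjoinRoot.root (X ^ n + 1 : A[X])) ^ n = -1 := by
  have h := AdjoinRoot.mk_self (f := (X ^ n + 1 : A[X]))
  rw [map_add, map_pow, AdjoinRoot.mk_X, map_one] at h
  exact eq_neg_of_add_eq_zero_left h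

end degree

/-! ### the main theorem -/

theorem scl_pos {y : ℕ} (hy : y ≠ 0) : scl y = (y + 1) / 2 + 1 + scl (y / 2) := by
  have h : y.size = (y / 2).size + 1 := by
    conv_lhs => rw [← Nat.bit_bodd_div2 y]
    rw [Nat.size_bit (by rwa [Nat.bit_bodd_div2]), Nat.div2_val]
  unfold scl
  omega

theorem nuss_spec (P : ℕ) (y : ℕ) : ∀ (k e : ℕ) (a b : List (List ℕ)),
    Shape (2 ^ k) (2 ^ (y + 2)) a → Shape (2 ^ k) (2 ^ (y + 2)) b → 2 ^ k ∣ e → k ≤ y + 3 →
    e ≤ 2 * 2 ^ (y + 2) →
    Shape (2 ^ k) (2 ^ (y + 2)) (nuss P y k e a b) ∧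
      ∀ (A : Type) [CommRing A] (z Y : A), (2 : A) ^ P = 0 → z ^ 2 ^ (y + 2) = -1 →
        Y ^ 2 ^ k - z ^ e ∣
          ev2 z Y (nuss P y k e a b) - 2 ^ (k + scl y) * (ev2 z Y a * ev2 z Y b) := by
  induction y using Nat.strong_induction_on with
  | _ y ihy =>
  intro k
  induction k with
  | zero =>
    intro e a b ha hb _ _ _
    rw [pow_zero] at ha hb ⊢
    have hla : a.flatten.length = 2 ^ (y + 2) := by rw [ha.length_flatten, one_mul]
    have hlb : b.flatten.length = 2 ^ (y + 2) := by rw [hb.length_flatten, one_mul]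
    by_cases hy : y = 0
    · subst hy
      rw [nuss_zero_zero]
      refine ⟨Shape.singleton (by rw [length_school, hlb]), fun A _ z Y h2 hz => ?_⟩
      rw [ha.eq_singleton, hb.eq_singleton]
      simp only [ev2_singleton, List.flatten_cons, List.flatten_nil, List.append_nil]
      rw [ev_school h2 hz hla hlb]
      simp [scl]
    · rw [nuss_pos_zero P hy]
      set B := 2 ^ (y / 2 + 1) with hB
      set t := 2 ^ ((y + 1) / 2 + 1) with ht
      have hn : 2 ^ (y + 2) = t * B := by
        rw [hB, ht, ← pow_add]; congr 1; omega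
      have hBB : 2 ^ (y / 2 + 2) = B + B := by rw [hB]; ring
      have hB0 : B + B ≠ 0 := by positivity
      have ht0 : 0 < t := by positivity
      obtain ⟨hs, hv⟩ := ihy (y / 2) (by omega) ((y + 1) / 2 + 1) (2 ^ (y / 2 + 2))
        (emb B t a.flatten) (emb B t b.flatten) (hBB ▸ shape_emb (hla.trans hn))
        (hBB ▸ shape_emb (hlb.trans hn)) (pow_dvd_pow 2 (by omega)) (by omega) (by omega)
      rw [hBB] at hs hv ⊢
      set c := nuss P (y / 2) ((y + 1) / 2 + 1) (B + B) (emb B t a.flatten) (emb B t b.flatten)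
      refine ⟨Shape.singleton (by rw [length_unemb hs, hn]), fun A _ z Y h2 hz => ?_⟩
      rw [hn] at hz
      rw [ha.eq_singleton, hb.eq_singleton]
      simp only [ev2_singleton]
      rw [hn, ev_unemb h2 ht0 hz hs, zero_add, scl_pos hy]
      -- the identity in the ring with a root of `X ^ (2 B) + 1`
      have key : ev2 (X : A[X]) (C (z ^ B)) c =
          C (2 ^ ((y + 1) / 2 + 1 + scl (y / 2))) * (ev2 X (C (z ^ B)) (cut B t a.flatten) *
            ev2 X (C (z ^ B)) (cut B t b.flatten)) := by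
        refine eq_of_mk_eq hB0 (degree_ev2_lt _ (fun u hu => (hs.2 u hu).le))
          (degree_C_mul_lt _ (degree_mul_lt
            (degree_ev2_lt _ (fun u hu => (length_of_mem_cut (hla.trans hn) u hu).le))
            (degree_ev2_lt _ (fun u hu => (length_of_mem_cut (hlb.trans hn) u hu).le)))) ?_
        have h3 := hv (AdjoinRoot (X ^ (B + B) + 1 : A[X])) (AdjoinRoot.root _)
          (AdjoinRoot.of _ (z ^ B)) (by rw [← map_ofNat (AdjoinRoot.of _) 2, ← map_pow, h2, map_zero])
          (root_pow _)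
        rw [root_pow, ← map_pow, ← pow_mul, mul_comm B, hz, map_neg, map_one, sub_self,
          zero_dvd_iff, sub_eq_zero, ev2_emb, ev2_emb] at h3
        simp only [map_mul, map_ev2, AdjoinRoot.mk_X, AdjoinRoot.mk_C, map_pow, map_ofNat] at h3 ⊢
        exact h3
      have h4 := congrArg (evalRingHom z) key
      simp only [map_mul, map_ev2, coe_evalRingHom, eval_X, eval_C] at h4
      rw [h4, ev2_cut z (hla.trans hn), ev2_cut z (hlb.trans hn), sub_self]
      exact dvd_zero _
  | succ k ihk =>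
    intro e a b ha hb he hk hle
    obtain ⟨f, rfl⟩ : ∃ f, e = 2 * f := (dvd_pow_self 2 (Nat.succ_ne_zero k)).trans he
    have hf : 2 * f / 2 = f := by omega
    have hfd : 2 ^ k ∣ f := by
      rw [pow_succ'] at he
      exact Nat.dvd_of_mul_dvd_mul_left (by norm_num) he
    have htt : 2 ^ (k + 1) = 2 ^ k + 2 ^ k := by ring
    have hfn : f ≤ 2 ^ (y + 2) := by omega
    rw [nuss_succ, hf]
    rw [htt] at ha hb ⊢
    obtain ⟨hsu, hu⟩ := ihk f _ _ (ha.fwdP (P := P) (c := 2 ^ (y + 2) - f))
      (hb.fwdP (P := P) (c := 2 ^ (y + 2) - f)) hfd (by omega) (by omega)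
    obtain ⟨hsv, hv⟩ := ihk (f + 2 ^ (y + 2)) _ _ (ha.fwdM (P := P) (c := 2 ^ (y + 2) - f))
      (hb.fwdM (P := P) (c := 2 ^ (y + 2) - f))
      (dvd_add hfd (pow_dvd_pow 2 (by omega))) (by omega) (by omega)
    refine ⟨hsu.join hsv, fun A _ z Y h2 hz => ?_⟩
    obtain ⟨α, hα⟩ := hu A z Y h2 hz
    obtain ⟨β, hβ⟩ := hv A z Y h2 hz
    rw [ev2_fwdP h2 Y hz hfn ha, ev2_fwdP h2 Y hz hfn hb] at hα
    rw [ev2_fwdM h2 Y hz hfn ha, ev2_fwdM h2 Y hz hfn hb, pow_add z, hz] at hβ
    rw [ev2_join h2 Y hz hfn hsu hsv]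
    have hq : z ^ f * z ^ (2 ^ (y + 2) - f) = -1 := by
      rw [← pow_add, Nat.add_sub_cancel' hfn, hz]
    rw [pow_add Y, two_mul f, pow_add z f f, show k + 1 + scl y = k + scl y + 1 by ring,
      pow_succ (2 : A)]
    generalize ev2 z Y (nuss P y k f _ _) = U at hα ⊢
    generalize ev2 z Y (nuss P y k (f + 2 ^ (y + 2)) _ _) = V at hβ ⊢
    generalize ev2 z Y a = x at hα hβ ⊢
    generalize ev2 z Y b = x' at hα hβ ⊢
    generalize ev2 z Y (a.drop _) = d at hα hβ
    generalize ev2 z Y (b.drop _) = d' at hα hβ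
    generalize z ^ (2 ^ (y + 2) - f) = q at hq ⊢
    generalize z ^ f = w at hα hβ hq ⊢
    generalize Y ^ 2 ^ k = T at hα hβ ⊢
    generalize (2 : A) ^ (k + scl y) = s at hα hβ ⊢
    have hα' : U - s * (x * x') = (T - w) * (α - s * (x * d' + d * x' - (T - w) * d * d')) := by
      linear_combination hα
    have hβ' : V - s * (x * x') = (T + w) * (β - s * (x * d' + d * x' - (T + w) * d * d')) := by
      linear_combination hβ
    generalize α - s * (x * d' + d * x' - (T - w) * d * d') = α' at hα'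
    generalize β - s * (x * d' + d * x' - (T + w) * d * d') = β' at hβ'
    refine ⟨q * (β' - α'), ?_⟩
    linear_combination (1 - T * q) * hα' + (1 + T * q) * hβ' + (α' * (T - w) + β' * (T + w)) * hq

end Crest.Agent.X326.Mul
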