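import Crest.Agent.X326.Mul.NMul
import Crest.Agent.Lib.PT.Iter

/-!
# Volumes, sizes and the cost recurrence of the Schoenhage-Nussbaumer recursion
-/

set_option autoImplicit false

namespace Crest.Agent.X326.Mul

open Crest.Agent.Lib.PT

/-- the volume of a node of the recursion -/
def vol (P y k : ℕ) : ℕ := 2 ^ k * (2 ^ (y + 2) * (P + 1))

/-- the total cost of a node of the recursion, `μ` is the cost per bit of the leaves -/
def tot (μ P y k : ℕ) : ℕ := vol P y k * (2 * k + 2 ^ y.size * (μ + 10 * y.size + 2))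

theorem vol_pos (P y k : ℕ) : 0 < vol P y k := by unfold vol; positivity

theorem vol_succ (P y k : ℕ) : vol P y (k + 1) = 2 * vol P y k := by unfold vol; ring

theorem vol_emb (P y : ℕ) : vol P (y / 2) ((y + 1) / 2 + 1) = 2 * vol P y 0 := by
  unfold vol
  have h : 2 ^ ((y + 1) / 2 + 1) * 2 ^ (y / 2 + 2) = 2 * 2 ^ (y + 2) := by
    rw [← pow_add, ← pow_succ']
    congr 1
    omega
  rw [← mul_assoc, h]
  ring

theorem tot_succ (μ P y k : ℕ) :
    vol P y (k + 1) + 1 + (tot μ P y k + tot μ P y k) ≤ tot μ P y (k + 1) := by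
  have h := vol_pos P y k
  unfold tot
  rw [vol_succ]
  generalize vol P y k = V at h ⊢
  generalize 2 ^ y.size * (μ + 10 * y.size + 2) = E
  nlinarith

theorem tot_emb (μ P : ℕ) {y : ℕ} (hy : y ≠ 0) :
    vol P y 0 + 1 + tot μ P (y / 2) ((y + 1) / 2 + 1) ≤ tot μ P y 0 := by
  have h := vol_pos P y 0
  have hs : y.size = (y / 2).size + 1 := by
    conv_lhs => rw [← Nat.bit_bodd_div2 y]
    rw [Nat.size_bit (by rwa [Nat.bit_bodd_div2]), Nat.div2_val]
  have hlt : y < 2 ^ y.size := Nat.lt_size_self y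
  unfold tot
  rw [vol_emb, hs] at *
  generalize vol P y 0 = V at h ⊢
  generalize (y / 2).size = s at *
  rw [pow_succ] at hlt ⊢
  have h1 : 0 < 2 ^ s := by positivity
  generalize 2 ^ s = E at *
  have h2 : 4 * ((y + 1) / 2 + 1) + 2 ≤ 20 * E := by omega
  generalize (y + 1) / 2 + 1 = k at *
  have h3 : V * (4 * k + 2) ≤ V * (20 * E) := Nat.mul_le_mul_left _ h2
  nlinarith

theorem tot_base (μ P : ℕ) : vol P 0 0 * (μ + 1) + 1 ≤ tot μ P 0 0 := by
  have h := vol_pos P 0 0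
  unfold tot
  generalize vol P 0 0 = V at h ⊢
  simp only [Nat.size_zero]
  nlinarith

theorem tot_zero_le (μ P y : ℕ) :
    tot μ P y 0 ≤ 10 * (2 ^ (y + 2) * (P + 1) * (2 ^ y.size * (μ + y.size + 1))) := by
  unfold tot vol
  generalize 2 ^ (y + 2) * (P + 1) = V
  generalize 2 ^ y.size = E
  have : E * (μ + 10 * y.size + 2) ≤ 10 * (E * (μ + y.size + 1)) := by nlinarith
  nlinarith

theorem pow_le_vol (P y k : ℕ) : 2 ^ (y + 2) ≤ vol P y k := by
  unfold vol
  calc 2 ^ (y + 2) = 1 * (2 ^ (y + 2) * 1) := by ring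
    _ ≤ _ := Nat.mul_le_mul Nat.one_le_two_pow (Nat.mul_le_mul_left _ (by omega))

theorem pow_le_vol' (P y k : ℕ) : 2 ^ k ≤ vol P y k :=
  Nat.le_mul_of_pos_right _ (by positivity)

theorem P_le_vol (P y k : ℕ) : P + 1 ≤ vol P y k := by
  unfold vol
  calc P + 1 = 1 * (1 * (P + 1)) := by ring
    _ ≤ _ := Nat.mul_le_mul Nat.one_le_two_pow (Nat.mul_le_mul_right _ Nat.one_le_two_pow)

theorem y_le_vol (P y k : ℕ) : y + 2 ≤ vol P y k :=
  Nat.lt_two_pow_self.le.trans (pow_le_vol P y k)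

theorem k_le_vol (P y k : ℕ) : k ≤ vol P y k :=
  Nat.lt_two_pow_self.le.trans (pow_le_vol' P y k)

theorem size_le_self (n : ℕ) : n.size ≤ n := Nat.size_le.2 Nat.lt_two_pow_self

theorem sz_nat_le (n : ℕ) : sz n ≤ n := by rw [sz_nat]; exact size_le_self n

theorem sz_le_of_lt {P c : ℕ} (h : c < 2 ^ P) : sz c ≤ P := by
  rw [sz_nat]; exact Nat.size_le.2 h

theorem Bd.sz_le {P : ℕ} {u : List ℕ} (h : Bd P u) : sz u ≤ u.length * (2 * P + 1) :=
  sz_list_le (fun c hc => sz_le_of_lt (h c hc))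

theorem Shape.sz_le {P t n : ℕ} {L : List (List ℕ)} (hs : Shape t n L) (h : Bd2 P L)
    (hn : 0 < n) : sz L ≤ 5 * (t * (n * (P + 1))) := by
  have h1 : sz L ≤ L.length * (2 * (n * (2 * P + 1)) + 1) :=
    sz_list_le (fun u hu => by have := (h u hu).sz_le; rwa [hs.2 u hu] at this)
  rw [hs.1] at h1
  have h2 : 2 * (n * (2 * P + 1)) + 1 ≤ 5 * (n * (P + 1)) := by nlinarith
  calc sz L ≤ t * (5 * (n * (P + 1))) := h1.trans (Nat.mul_le_mul_left _ h2)
    _ = _ := by ring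

end Crest.Agent.X326.Mul
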