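import Crest.Agent.X326.Mul.Cost
import Crest.Agent.X326.TC.ListLin
import Crest.Agent.X326.TC.Map
import Crest.Agent.X326.TC.Deal
import Crest.Agent.X326.TC.Un
import Crest.Agent.X326.TC.NatLin

/-!
# Running times of the list operations of the Schoenhage-Nussbaumer recursion
-/

set_option autoImplicit false

namespace Crest.Agent.X326.Mul

open Crest.Agent.Lib.PT

/-- multiplication of naturals with `g` the cost per bit -/
def MulTC (g : ℕ → ℕ) : Prop :=
  TC (fun _ => True) (fun q : ℕ × ℕ => (q.1.size + q.2.size + 1) * g (q.1.size + q.2.size))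
    (fun q => q.1 * q.2)

section

variable {α : Type} [PTCode α] {D : Dom α} {T : Cost α}

/-! ### scalars -/

theorem tc_addM {P a b : α → ℕ} (hP : TU D T P) (ha : TC D T a) (hb : TC D T b) :
    TC D T (fun x => addM (P x) (a x) (b x)) := TC.natModTwoPow (TC.natAdd ha hb) hP

theorem tc_negM {P a : α → ℕ} (hP : TU D T P) (ha : TC D T a) :
    TC D T (fun x => negM (P x) (a x)) := TC.natModTwoPow (TC.natSub (TC.twoPow hP) (TC.natModTwoPow ha hP)) hP

theorem tc_subM {P a b : α → ℕ} (hP : TU D T P) (ha : TC D T a) (hb : TC D T b) :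
    TC D T (fun x => subM (P x) (a x) (b x)) := tc_addM hP ha (tc_negM hP hb)

theorem tc_mul {g : ℕ → ℕ} (hm : MulTC g) {a b : α → ℕ} (ha : TC D T a) (hb : TC D T b)
    (h : Bud D T (fun x => ((a x).size + (b x).size + 1) * g ((a x).size + (b x).size))) :
    TC D T (fun x => a x * b x) :=
  TC.comp (f := fun x => (a x, b x)) hm (ha.prodMk hb) (fun _ _ => trivial) h

theorem tc_mulM {g : ℕ → ℕ} (hm : MulTC g) {P a b : α → ℕ} (hP : TU D T P) (ha : TC D T a)
    (hb : TC D T b)
    (h : Bud D T (fun x => ((a x).size + (b x).size + 1) * g ((a x).size + (b x).size))) :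
    TC D T (fun x => mulM (P x) (a x) (b x)) := TC.natModTwoPow (tc_mul hm ha hb h) hP

/-! ### `zipWith` with a context -/

theorem tc_zipCtx {κ β γ δ : Type} [PTCode κ] [PTCode β] [PTCode γ] [PTCode δ]
    {S : κ × β × γ → ℕ} {f : κ → β → γ → δ}
    (hf : TC (fun _ => True) S (fun q : κ × β × γ => f q.1 q.2.1 q.2.2)) {c : α → κ}
    {u : α → List β} {v : α → List γ} (hc : TC D T c) (hu : TC D T u) (hv : TC D T v)
    (B : α → ℕ) (h : ∀ x, D x → ∀ a ∈ u x, ∀ b ∈ v x, S (c x, a, b) ≤ B x)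
    (hB : Bud D T (fun x => min (u x).length (v x).length * (B x + sz (c x)))) :
    TC D T (fun x => List.zipWith (f (c x)) (u x) (v x)) := by
  refine (TC.mapCtx_le (f := fun k (p : β × γ) => f k p.1 p.2) hf hc (hu.zip hv) B 0
    (fun x hx p hp => ⟨trivial, ?_⟩) (hB.mono (fun x _ => ?_)) (hB.mono (fun x _ => ?_))).of_eq
    (fun x => ?_)
  · have := List.of_mem_zip (a := p.1) (b := p.2) hp
    simpa using h x hx _ this.1 _ this.2
  · rw [List.length_zip]; exact Nat.mul_le_mul_left _ (by omega)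
  · rw [List.length_zip]; exact Nat.mul_le_mul_left _ (by omega)
  · rw [← List.map_uncurry_zip_eq_zipWith]; rfl

/-! ### vectors -/

theorem tc_vadd {P : α → ℕ} {u v : α → List ℕ} (hP : TU D T P) (hu : TC D T u) (hv : TC D T v)
    (hb : Bud D T (fun x => min (u x).length (v x).length * P x)) :
    TC D T (fun x => vadd (P x) (u x) (v x)) :=
  tc_zipCtx (f := fun (k : Un) a b => addM k.val a b) (S := fun _ => 0)
    (tc_addM (TU.val TC.id.fst) TC.id.snd.fst TC.id.snd.snd) hP hu hv (fun _ => 0)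
    (fun _ _ _ _ _ _ => le_rfl) (hb.mono (fun x _ => by simp))

theorem tc_vsub {P : α → ℕ} {u v : α → List ℕ} (hP : TU D T P) (hu : TC D T u) (hv : TC D T v)
    (hb : Bud D T (fun x => min (u x).length (v x).length * P x)) :
    TC D T (fun x => vsub (P x) (u x) (v x)) :=
  tc_zipCtx (f := fun (k : Un) a b => subM k.val a b) (S := fun _ => 0)
    (tc_subM (TU.val TC.id.fst) TC.id.snd.fst TC.id.snd.snd) hP hu hv (fun _ => 0)
    (fun _ _ _ _ _ _ => le_rfl) (hb.mono (fun x _ => by simp))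

theorem tc_map_negM {P : α → ℕ} {u : α → List ℕ} (hP : TU D T P) (hu : TC D T u)
    (hb : Bud D T (fun x => (u x).length * P x)) : TC D T (fun x => (u x).map (negM (P x))) :=
  TC.mapCtx_lin (f := fun (k : Un) a => negM k.val a) (tc_negM (TU.val TC.id.fst) TC.id.snd) hP hu
    (hb.mono (fun x _ => by simp))

theorem tc_rotc {P c : α → ℕ} {u : α → List ℕ} (hP : TU D T P) (hc : TU D T c) (hu : TC D T u)
    (hb : Bud D T (fun x => (u x).length * P x)) : TC D T (fun x => rotc (P x) (c x) (u x)) :=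
  (tc_map_negM hP (TC.drop hc hu)
    (hb.mono (fun x _ => Nat.mul_le_mul_right _ (by simp)))).append (TC.take hc hu)

/-! ### arrays -/

theorem tc_zip_vadd {P : α → ℕ} {u v : α → List (List ℕ)} (hP : TU D T P) (hu : TC D T u)
    (hv : TC D T v) (n : α → ℕ)
    (hn : ∀ x, D x → ∀ a ∈ u x, ∀ b ∈ v x, min a.length b.length ≤ n x)
    (hb : Bud D T (fun x => min (u x).length (v x).length * ((n x + 1) * (P x + 1)))) :
    TC D T (fun x => List.zipWith (vadd (P x)) (u x) (v x)) :=
  tc_zipCtx (f := fun (k : Un) a b => vadd k.val a b)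
    (S := fun q => min q.2.1.length q.2.2.length * q.1.val)
    (tc_vadd (TU.val TC.id.fst) TC.id.snd.fst TC.id.snd.snd Bud.self) hP hu hv
    (fun x => n x * P x) (fun x hx a ha b hb => Nat.mul_le_mul_right _ (hn x hx a ha b hb))
    (hb.mono (fun x _ => Nat.mul_le_mul_left _ (by simp only [sz_un]; nlinarith)))

theorem tc_zip_vsub {P : α → ℕ} {u v : α → List (List ℕ)} (hP : TU D T P) (hu : TC D T u)
    (hv : TC D T v) (n : α → ℕ)
    (hn : ∀ x, D x → ∀ a ∈ u x, ∀ b ∈ v x, min a.length b.length ≤ n x)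
    (hb : Bud D T (fun x => min (u x).length (v x).length * ((n x + 1) * (P x + 1)))) :
    TC D T (fun x => List.zipWith (vsub (P x)) (u x) (v x)) :=
  tc_zipCtx (f := fun (k : Un) a b => vsub k.val a b)
    (S := fun q => min q.2.1.length q.2.2.length * q.1.val)
    (tc_vsub (TU.val TC.id.fst) TC.id.snd.fst TC.id.snd.snd Bud.self) hP hu hv
    (fun x => n x * P x) (fun x hx a ha b hb => Nat.mul_le_mul_right _ (hn x hx a ha b hb))
    (hb.mono (fun x _ => Nat.mul_le_mul_left _ (by simp only [sz_un]; nlinarith)))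

theorem tc_map_rotc {P c : α → ℕ} {a : α → List (List ℕ)} (hP : TU D T P) (hc : TU D T c)
    (ha : TC D T a) (n : α → ℕ) (hn : ∀ x, D x → c x ≤ n x ∧ ∀ u ∈ a x, u.length ≤ n x)
    (hb : Bud D T (fun x => (a x).length * ((n x + 1) * (P x + 1)))) :
    TC D T (fun x => (a x).map (rotc (P x) (c x))) := by
  refine TC.mapCtx_le (f := fun (k : Un × Un) u => rotc k.1.val k.2.val u) (Q := fun _ => True)
    (S := fun q => q.2.length * q.1.1.val) (c := fun x => (Un.mk (P x), Un.mk (c x)))
    (tc_rotc (TU.val TC.id.fst.fst) (TU.val TC.id.fst.snd) TC.id.snd Bud.self)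
    (TC.prodMk hP hc) ha (fun x => n x * P x) 0
    (fun x hx u hu => ⟨trivial, by simpa using Nat.mul_le_mul_right _ ((hn x hx).2 u hu)⟩)
    (hb.mono (fun x _ => Nat.mul_le_mul_left _ (by nlinarith)))
    ((hb.const_mul 2).mono (fun x hx => ?_))
  have h1 := (hn x hx).1
  have h2 : 2 * P x + 1 + c x ≤ 2 * ((n x + 1) * (P x + 1)) := by nlinarith
  calc (a x).length * sz (Un.mk (P x), Un.mk (c x))
      ≤ (a x).length * (2 * ((n x + 1) * (P x + 1))) :=
        Nat.mul_le_mul_left _ (by simpa using h2)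
    _ = _ := by ring

theorem tc_fwdP {P t c : α → ℕ} {a : α → List (List ℕ)} (hP : TU D T P) (ht : TU D T t)
    (hc : TU D T c) (ha : TC D T a) (n : α → ℕ)
    (hn : ∀ x, D x → c x ≤ n x ∧ ∀ u ∈ a x, u.length ≤ n x)
    (hb : Bud D T (fun x => (a x).length * ((n x + 1) * (P x + 1)))) :
    TC D T (fun x => fwdP (P x) (t x) (c x) (a x)) :=
  tc_zip_vadd hP (TC.take ht ha)
    (tc_map_rotc hP hc (TC.drop ht ha) n
      (fun x hx => ⟨(hn x hx).1, fun u hu => (hn x hx).2 u (List.mem_of_mem_drop hu)⟩)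
      (hb.mono (fun x _ => Nat.mul_le_mul_right _ (by simp)))) n
    (fun x hx u hu _ _ => (min_le_left _ _).trans ((hn x hx).2 u (List.mem_of_mem_take hu)))
    (hb.mono (fun x _ => Nat.mul_le_mul_right _ (by simp)))

theorem tc_fwdM {P t c : α → ℕ} {a : α → List (List ℕ)} (hP : TU D T P) (ht : TU D T t)
    (hc : TU D T c) (ha : TC D T a) (n : α → ℕ)
    (hn : ∀ x, D x → c x ≤ n x ∧ ∀ u ∈ a x, u.length ≤ n x)
    (hb : Bud D T (fun x => (a x).length * ((n x + 1) * (P x + 1)))) :
    TC D T (fun x => fwdM (P x) (t x) (c x) (a x)) :=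
  tc_zip_vsub hP (TC.take ht ha)
    (tc_map_rotc hP hc (TC.drop ht ha) n
      (fun x hx => ⟨(hn x hx).1, fun u hu => (hn x hx).2 u (List.mem_of_mem_drop hu)⟩)
      (hb.mono (fun x _ => Nat.mul_le_mul_right _ (by simp)))) n
    (fun x hx u hu _ _ => (min_le_left _ _).trans ((hn x hx).2 u (List.mem_of_mem_take hu)))
    (hb.mono (fun x _ => Nat.mul_le_mul_right _ (by simp)))

theorem tc_join {P f : α → ℕ} {u v : α → List (List ℕ)} (hP : TU D T P) (hf : TU D T f)
    (hu : TC D T u) (hv : TC D T v) (n : α → ℕ)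
    (hn : ∀ x, D x → f x ≤ n x ∧ ∀ w ∈ u x, w.length ≤ n x)
    (hb : Bud D T (fun x => (u x).length * ((n x + 1) * (P x + 1)))) :
    TC D T (fun x => join (P x) (f x) (u x) (v x)) := by
  refine (tc_zip_vadd hP hu hv n
    (fun x hx a ha _ _ => (min_le_left _ _).trans ((hn x hx).2 a ha))
    (hb.mono (fun x _ => Nat.mul_le_mul_right _ (min_le_left _ _)))).append
    (tc_map_rotc hP hf (tc_zip_vsub hP hv hu n
      (fun x hx _ _ b hb => (min_le_right _ _).trans ((hn x hx).2 b hb))
      (hb.mono (fun x _ => Nat.mul_le_mul_right _ (min_le_right _ _)))) n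
      (fun x hx => ⟨(hn x hx).1, fun w hw => ?_⟩)
      (hb.mono (fun x _ => Nat.mul_le_mul_right _ (by simp))))
  obtain ⟨a, _, b, hb', rfl⟩ := mem_zipWith hw
  rw [length_vsub]
  exact (min_le_right _ _).trans ((hn x hx).2 b hb')

theorem cut_eq_chunks {β : Type} {B t : ℕ} (hB : 0 < B) {l : List β} (h : l.length = t * B) :
    cut B t l = chunks B l := by
  conv_rhs => rw [← flatten_cut h]
  rw [chunks_flatten hB (length_of_mem_cut h)]

theorem tc_cut {β : Type} [PTCode β] {B : α → ℕ} {u : α → List β} (hB : TU D T B)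
    (hu : TC D T u) (t : α → ℕ) (h : ∀ x, D x → 0 < B x ∧ (u x).length = t x * B x) :
    TC D T (fun x => cut (B x) (t x) (u x)) :=
  (TC.chunksTU hB hu).congr (fun x hx => (cut_eq_chunks (h x hx).1 (h x hx).2).symm)

theorem tc_emb {B : α → ℕ} {u : α → List ℕ} (hB : TU D T B) (hu : TC D T u) (t : α → ℕ)
    (h : ∀ x, D x → 0 < B x ∧ (u x).length = t x * B x) :
    TC D T (fun x => emb (B x) (t x) (u x)) :=
  TC.mapCtx_lin (f := fun (z : List ℕ) c => c ++ z) (c := fun x => List.replicate (B x) 0)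
    (TC.id.snd.append TC.id.fst) (TC.replicate_const 0 hB) (tc_cut hB hu t h)
    ((Bud.length hu).mono (fun x hx => by
      rw [length_cut, sz_replicate, (h x hx).2]
      simp [sz_nat]))

theorem length_mul_le_length_flatten {β : Type} {B : ℕ} {L : List (List β)}
    (h : ∀ w ∈ L, B ≤ w.length) : L.length * B ≤ L.flatten.length := by
  induction L with
  | nil => simp
  | cons w L ih =>
    have h1 := h w (by simp)
    have h2 := ih (fun w hw => h w (by simp [hw]))
    rw [List.flatten_cons, List.length_append, List.length_cons, add_mul]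
    omega

theorem length_flatten_map_le {β : Type} {L : List (List β)} {g : List β → List β}
    (h : ∀ w, (g w).length ≤ w.length) : (L.map g).flatten.length ≤ L.flatten.length := by
  induction L with
  | nil => simp
  | cons w L ih =>
    have h1 := h w
    rw [List.map_cons, List.flatten_cons, List.flatten_cons, List.length_append,
      List.length_append]
    omega

theorem tc_unemb {P B c : α → ℕ} {L : α → List (List ℕ)} (hP : TU D T P) (hB : TU D T B)
    (hc : TU D T c) (hL : TC D T L) (h : ∀ x, D x → ∀ w ∈ L x, B x ≤ w.length)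
    (hb : Bud D T (fun x => (L x).flatten.length * (P x + 1))) :
    TC D T (fun x => unemb (P x) (B x) (c x) (L x)) := by
  have hC : Bud D T (fun x => (L x).length * sz (Un.mk (B x))) :=
    (Bud.length hL.flatten).mono (fun x hx => by
      simpa using length_mul_le_length_flatten (h x hx))
  have h1 : TC D T (fun x => (L x).map (List.take (B x))) :=
    TC.mapCtx_lin (f := fun (k : Un) (w : List ℕ) => w.take k.val)
      (TC.take (TU.val TC.id.fst) TC.id.snd) hB hL hC
  have h2 : TC D T (fun x => (L x).map (List.drop (B x))) :=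
    TC.mapCtx_lin (f := fun (k : Un) (w : List ℕ) => w.drop k.val)
      (TC.drop (TU.val TC.id.fst) TC.id.snd) hB hL hC
  refine tc_vadd hP h1.flatten (tc_rotc hP hc h2.flatten (hb.mono (fun x _ => ?_)))
    (hb.mono (fun x _ => ?_))
  · exact Nat.mul_le_mul (length_flatten_map_le (fun w => by simp)) (by omega)
  · exact Nat.mul_le_mul ((min_le_left _ _).trans (length_flatten_map_le (fun w => by simp)))
      (by omega)

/-! ### the base case -/

theorem tc_map_mulM (g : ℕ → ℕ) (hg : Monotone g) (hm : MulTC g) {P c : α → ℕ}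
    {v : α → List ℕ} (hP : TU D T P) (hc : TC D T c) (hv : TC D T v)
    (h : ∀ x, D x → c x < 2 ^ P x ∧ Bd (P x) (v x))
    (hb : Bud D T (fun x => (v x).length * ((P x + 1) * (g (2 * P x) + 1)))) :
    TC D T (fun x => (v x).map (mulM (P x) (c x))) := by
  refine TC.mapCtx_le (f := fun (k : Un × ℕ) b => mulM k.1.val k.2 b) (Q := fun _ => True)
    (S := fun q => (q.1.2.size + q.2.size + 1) * g (q.1.2.size + q.2.size))
    (c := fun x => (Un.mk (P x), c x))
    (tc_mulM hm (TU.val TC.id.fst.fst) TC.id.fst.snd TC.id.snd Bud.self)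
    (TC.prodMk hP hc) hv (fun x => 2 * ((P x + 1) * (g (2 * P x) + 1))) 0
    (fun x hx b hb => ⟨trivial, ?_⟩) ((hb.const_mul 2).mono (fun x _ => le_of_eq (by ring)))
    ((hb.const_mul 3).mono (fun x hx => ?_))
  · have h1 : (c x).size ≤ P x := Nat.size_le.2 (h x hx).1
    have h2 : b.size ≤ P x := Nat.size_le.2 ((h x hx).2 b hb)
    have h3 : g ((c x).size + b.size) ≤ g (2 * P x) := hg (by omega)
    calc ((c x).size + b.size + 1) * g ((c x).size + b.size)
        ≤ (2 * (P x + 1)) * (g (2 * P x) + 1) := Nat.mul_le_mul (by omega) (by omega)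
      _ = _ := by ring
  · have h1 : sz (c x) ≤ P x := sz_le_of_lt (h x hx).1
    have h2 : 2 * P x + 1 + sz (c x) ≤ 3 * ((P x + 1) * (g (2 * P x) + 1)) := by nlinarith
    calc (v x).length * sz (Un.mk (P x), c x)
        ≤ (v x).length * (3 * ((P x + 1) * (g (2 * P x) + 1))) :=
          Nat.mul_le_mul_left _ (by simpa using h2)
      _ = _ := by ring

theorem tc_schoolStep (g : ℕ → ℕ) (hg : Monotone g) (hm : MulTC g) {P c : α → ℕ}
    {v acc : α → List ℕ} (hP : TU D T P) (hv : TC D T v) (hc : TC D T c) (hacc : TC D T acc)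
    (h : ∀ x, D x → c x < 2 ^ P x ∧ Bd (P x) (v x) ∧ (v x).length = 4 ∧ (acc x).length = 4)
    (hb : Bud D T (fun x => (P x + 1) * (g (2 * P x) + 1))) :
    TC D T (fun x => schoolStep (P x) (v x) (c x) (acc x)) :=
  tc_vadd hP
    (tc_map_mulM g hg hm hP hc hv (fun x hx => ⟨(h x hx).1, (h x hx).2.1⟩)
      ((hb.const_mul 4).mono (fun x hx => by rw [(h x hx).2.2.1])))
    (tc_rotc hP (TU.const 3) hacc
      ((hP.bud.const_mul 4).mono (fun x hx => by rw [(h x hx).2.2.2])))
    ((hP.bud.const_mul 4).mono (fun x hx => by simp [(h x hx).2.2.1, (h x hx).2.2.2]))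

theorem tc_school (g : ℕ → ℕ) (hg : Monotone g) (hm : MulTC g) {P : α → ℕ} {u v : α → List ℕ}
    (hP : TU D T P) (hu : TC D T u) (hv : TC D T v)
    (h : ∀ x, D x → Bd (P x) (u x) ∧ Bd (P x) (v x) ∧ (v x).length = 4)
    (hb : Bud D T (fun x => (P x + 1) * (g (2 * P x) + 1))) :
    TC D T (fun x => school (P x) (u x) (v x)) := by
  have hget : ∀ i : ℕ, TC D T (fun x => (u x).getD i 0) := fun i =>
    TC.getD hu (TU.const i) (TC.const 0)
  have h3 : TC D T (fun x => (v x).map (mulM (P x) ((u x).getD 3 0))) :=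
    tc_map_mulM g hg hm hP (hget 3) hv (fun x hx => ⟨(h x hx).1.getD 3, (h x hx).2.1⟩)
      ((hb.const_mul 4).mono (fun x hx => by rw [(h x hx).2.2]))
  have h2 := tc_schoolStep g hg hm hP hv (hget 2) h3
    (fun x hx => ⟨(h x hx).1.getD 2, (h x hx).2.1, (h x hx).2.2, by simp [(h x hx).2.2]⟩) hb
  have h1 := tc_schoolStep g hg hm hP hv (hget 1) h2
    (fun x hx => ⟨(h x hx).1.getD 1, (h x hx).2.1, (h x hx).2.2,
      by simp [schoolStep, (h x hx).2.2]⟩) hb
  exact tc_schoolStep g hg hm hP hv (hget 0) h1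
    (fun x hx => ⟨(h x hx).1.getD 0, (h x hx).2.1, (h x hx).2.2,
      by simp [schoolStep, (h x hx).2.2]⟩) hb

end

end Crest.Agent.X326.Mul
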